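import Vale.Agent.P096.KK.StepAux
import Vale.Agent.P096.KK.Triangle
import Vale.Agent.P096.KK.L2Bound

/-!
# P096: algebra of the cocycle `cocV` on the trace vector

The cocycle identity, the action by conjugation and the linear form of the gauge.
-/

noncomputable section

namespace Vale.Agent.P096.KK

open scoped InnerProductSpace
open Finset Triangle

universe u

variable {H : Type u} [NormedAddCommGroup H] [InnerProductSpace ℂ H] [CompleteSpace H]

/-- Right multiplication is an antihomomorphism of star algebras and a contraction. -/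
def RightAlg (M : VonNeumannAlgebra H) (R : (H →L[ℂ] H) → (H →L[ℂ] H)) : Prop :=
  ∀ a ∈ M, ∀ b ∈ M, R (a * b) = R b * R a ∧ R (a + b) = R a + R b ∧ ‖R a‖ ≤ ‖a‖ ∧
    R (star a) = star (R a)

variable {M : VonNeumannAlgebra H} {Ω : H} {R : (H →L[ℂ] H) → (H →L[ℂ] H)}
  {N : Subalgebra ℂ (H →L[ℂ] H)} {P : Set (H →L[ℂ] H)} {d ε : ℝ}

/-- The operator of a unitary of `M`. -/
abbrev uop (g : uGroup M) : H →L[ℂ] H := ((g : unitary (H →L[ℂ] H)) : H →L[ℂ] H)

lemma uop_mem (g : uGroup M) : uop g ∈ M := g.2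

lemma uop_mul (g h : uGroup M) : uop (g * h) = uop g * uop h := rfl

lemma uop_one : uop (1 : uGroup M) = 1 := rfl

lemma uop_inv (g : uGroup M) : uop g⁻¹ = star (uop g) := rfl

lemma star_uop_mul (g : uGroup M) : star (uop g) * uop g = 1 :=
  Unitary.coe_star_mul_self _

lemma uop_mul_star (g : uGroup M) : uop g * star (uop g) = 1 :=
  Unitary.coe_mul_star_self _

lemma norm_uop_le (g : uGroup M) : ‖uop g‖ ≤ 1 := L2Bound.norm_le_one_of_iso (star_uop_mul g)

namespace RightAlg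

variable (hS : Std M Ω R) (hR : RightAlg M R)
include hS hR

omit hS in
lemma apply_mul {a b : H →L[ℂ] H} (ha : a ∈ M) (hb : b ∈ M) (v : H) :
    R a (R b v) = R (b * a) v := by
  rw [(hR b hb a ha).1]; rfl

omit hS in
lemma norm_apply_le {a : H →L[ℂ] H} (ha : a ∈ M) (v : H) : ‖R a v‖ ≤ ‖a‖ * ‖v‖ :=
  ((R a).le_opNorm v).trans (mul_le_mul_of_nonneg_right (hR a ha a ha).2.2.1 (norm_nonneg _))

lemma apply_uop (g : uGroup M) (v : H) : R (uop g) (R (star (uop g)) v) = v := by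
  rw [apply_mul hR (uop_mem g) (star_mem (uop_mem g)), star_uop_mul, hS.right_one,
    one_apply_eq_self]

lemma norm_right_uop (g : uGroup M) (v : H) : ‖R (uop g) v‖ = ‖v‖ := by
  refine le_antisymm ((norm_apply_le hR (uop_mem g) v).trans
    (mul_le_of_le_one_left (norm_nonneg _) (norm_uop_le g))) ?_
  have h : R (star (uop g)) (R (uop g) v) = v := by
    rw [apply_mul hR (star_mem (uop_mem g)) (uop_mem g), uop_mul_star, hS.right_one,
      one_apply_eq_self]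
  conv_lhs => rw [← h]
  refine (norm_apply_le hR (star_mem (uop_mem g)) _).trans
    (mul_le_of_le_one_left (norm_nonneg _) ?_)
  rw [norm_star]; exact norm_uop_le g

lemma norm_right_star_uop (g : uGroup M) (v : H) : ‖R (star (uop g)) v‖ = ‖v‖ := by
  rw [← uop_inv]; exact norm_right_uop hS hR g⁻¹ v

end RightAlg

lemma norm_uop_apply (g : uGroup M) (v : H) : ‖uop g v‖ = ‖v‖ := L2Bound.norm_apply_iso (star_uop_mul g) v

/-- The action by conjugation. -/
def conjLin (R : (H →L[ℂ] H) → (H →L[ℂ] H)) (g : uGroup M) : H →L[ℂ] H :=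
  uop g * R (star (uop g))

lemma norm_conjLin (hS : Std M Ω R) (hR : RightAlg M R) (g : uGroup M) (v : H) :
    ‖conjLin R g v‖ = ‖v‖ := by
  rw [conjLin, mul_apply_eq_comp, norm_uop_apply, RightAlg.norm_right_star_uop hS hR]

lemma conjLin_mul (hS : Std M Ω R) (hR : RightAlg M R) (g h : uGroup M) (v : H) :
    conjLin R (g * h) v = conjLin R g (conjLin R h v) := by
  simp only [conjLin, mul_apply_eq_comp, uop_mul, star_mul]
  rw [(hR _ (star_mem (uop_mem h)) _ (star_mem (uop_mem g))).1]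
  simp only [mul_apply_eq_comp, hS.comm_right (uop_mem h) (star_mem (uop_mem g))]

lemma conjLin_one (hS : Std M Ω R) (v : H) : conjLin R (1 : uGroup M) v = v := by
  simp [conjLin, uop_one, hS.right_one]

/-- The action by conjugation, as linear isometries. -/
def conjRep (hS : Std M Ω R) (hR : RightAlg M R) : uGroup M →* (H ≃ₗᵢ[ℝ] H) where
  toFun g :=
    { toFun := conjLin R g
      map_add' := map_add _
      map_smul' := fun c v => by simp
      invFun := conjLin R g⁻¹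
      left_inv := fun v => by rw [← conjLin_mul hS hR, inv_mul_cancel, conjLin_one hS]
      right_inv := fun v => by rw [← conjLin_mul hS hR, mul_inv_cancel, conjLin_one hS]
      norm_map' := norm_conjLin hS hR g }
  map_one' := LinearIsometryEquiv.ext fun v => conjLin_one hS v
  map_mul' g h := LinearIsometryEquiv.ext fun v => conjLin_mul hS hR g h v

lemma conjRep_apply (hS : Std M Ω R) (hR : RightAlg M R) (g : uGroup M) (v : H) :
    conjRep hS hR g v = uop g (R (star (uop g)) v) := rfl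

/-- The hypotheses on the two selections. -/
structure Sel (M : VonNeumannAlgebra H) (Ω : H) (N : Subalgebra ℂ (H →L[ℂ] H)) (z : H →L[ℂ] H)
    (k d ε : ℝ) (θ θ' : (H →L[ℂ] H) → (H →L[ℂ] H)) : Prop where
  mem : ∀ x ∈ M, θ x ∈ N
  near : ∀ x ∈ M, ‖θ x - x‖ ≤ k * d * ‖x‖
  vec : ∀ x ∈ M, ‖(θ x - x) (z Ω)‖ ≤ k * ε * ‖x‖ * ‖z Ω‖
  mem' : ∀ y ∈ M.commutant, θ' y ∈ cent N
  near' : ∀ y ∈ M.commutant, ‖θ' y - y‖ ≤ k * d * ‖y‖
  vec' : ∀ y ∈ M.commutant, ‖(θ' y - y) (z Ω)‖ ≤ k * ε * ‖y‖ * ‖z Ω‖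

/-- Everything that the gauge needs at one piece. -/
structure Ctx (M : VonNeumannAlgebra H) (Ω : H) (R : (H →L[ℂ] H) → (H →L[ℂ] H))
    (N : Subalgebra ℂ (H →L[ℂ] H)) (P : Set (H →L[ℂ] H)) (z : H →L[ℂ] H) (k d ε : ℝ)
    (θ θ' : (H →L[ℂ] H) → (H →L[ℂ] H)) : Prop where
  close : Close M Ω R N P d ε
  right : RightAlg M R
  sel : Sel M Ω N z k d ε θ θ'
  piece : z ∈ P
  k_nonneg : 0 ≤ k
  kd : k * d ≤ 1

namespace Ctx

variable {z : H →L[ℂ] H} {k : ℝ} {θ θ' : (H →L[ℂ] H) → (H →L[ℂ] H)}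
variable (hX : Ctx M Ω R N P z k d ε θ θ')
include hX

lemma norm_sel_le {x : H →L[ℂ] H} (hx : x ∈ M) : ‖θ x‖ ≤ 2 * ‖x‖ := by
  have h1 := hX.sel.near x hx
  have h2 := norm_le_norm_add_norm_sub' (θ x) x
  have h3 : k * d * ‖x‖ ≤ 1 * ‖x‖ := mul_le_mul_of_nonneg_right hX.kd (norm_nonneg _)
  linarith

lemma norm_delVec_le {n b : H →L[ℂ] H} (hn : n ∈ N) (hb : b ∈ M) :
    ‖delVec R Ω z n b‖ ≤ ε * ‖n‖ * ‖b‖ * ‖z Ω‖ := hX.close.small n hn b hb z hX.piece

lemma norm_delVec_sel_le {x b : H →L[ℂ] H} (hx : x ∈ M) (hb : b ∈ M) :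
    ‖delVec R Ω z (θ x) b‖ ≤ 2 * ε * ‖x‖ * ‖b‖ * ‖z Ω‖ := by
  refine (hX.norm_delVec_le (hX.sel.mem x hx) hb).trans ?_
  have h1 := mul_le_mul_of_nonneg_left (hX.norm_sel_le hx) hX.close.ε_nonneg
  calc ε * ‖θ x‖ * ‖b‖ * ‖z Ω‖ ≤ ε * (2 * ‖x‖) * ‖b‖ * ‖z Ω‖ := by gcongr
    _ = _ := by ring

/-- A selection of a member of `N` is nearly that member. -/
lemma norm_delVec_sel_of_mem {x b : H →L[ℂ] H} (hx : x ∈ M) (hxN : x ∈ N) (hb : b ∈ M) :
    ‖delVec R Ω z (θ x) b‖ ≤ k * d * ε * ‖x‖ * ‖b‖ * ‖z Ω‖ := by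
  have h0 : delVec R Ω z x b = 0 := by
    simp [delVec, hX.close.std.comm_right hx hb]
  have h1 : delVec R Ω z (θ x) b = delVec R Ω z (θ x - x) b := by
    rw [← sub_zero (delVec R Ω z (θ x) b), ← h0]
    simp only [delVec, sub_apply, map_sub]
    abel
  rw [h1]
  refine (hX.norm_delVec_le (sub_mem (hX.sel.mem x hx) hxN) hb).trans ?_
  calc ε * ‖θ x - x‖ * ‖b‖ * ‖z Ω‖ ≤ ε * (k * d * ‖x‖) * ‖b‖ * ‖z Ω‖ := by
        have := hX.sel.near x hx
        have := hX.close.ε_nonneg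
        gcongr
    _ = _ := by ring

omit hX in
/-- Elements with right multiplication in the centraliser give nothing. -/
lemma delVec_eq_zero_of_cent {n b : H →L[ℂ] H} (hn : n ∈ N) (hb : R b ∈ cent N) :
    delVec R Ω z n b = 0 := by
  rw [delVec, apply_comm (mem_cent_iff.1 hb n hn), sub_self]

lemma norm_delVec_sub_frozen_le {x b : H →L[ℂ] H} (hx : x ∈ M) (hb : b ∈ M) :
    ‖delVec R Ω z (θ x) b - frozen Ω z x (θ' (R b))‖ ≤
      2 * k ^ 2 * d * ε * ‖x‖ * ‖b‖ * ‖z Ω‖ := by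
  have hn := hX.sel.mem x hx
  have hy := hX.sel.mem' (R b) (hX.close.std.right_mem b hb)
  have hid : delVec R Ω z (θ x) b - frozen Ω z x (θ' (R b)) =
      (θ' (R b) - R b) ((θ x - x) (z Ω)) - (θ x - x) ((θ' (R b) - R b) (z Ω)) := by
    simp only [delVec, frozen, sub_apply, map_sub, hX.close.std.comm_right hx hb,
      apply_comm (mem_cent_iff.1 hy (θ x) hn) (z Ω)]
    abel
  have hRb : ‖R b‖ ≤ ‖b‖ := (hX.right b hb b hb).2.2.1
  have h1 := hX.sel.near x hx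
  have h2 := hX.sel.vec x hx
  have h3 := hX.sel.near' (R b) (hX.close.std.right_mem b hb)
  have h4 := hX.sel.vec' (R b) (hX.close.std.right_mem b hb)
  have hd := hX.close.d_nonneg
  have he := hX.close.ε_nonneg
  have hk := hX.k_nonneg
  rw [hid]
  refine (norm_sub_le _ _).trans ?_
  refine (add_le_add ((ContinuousLinearMap.le_opNorm _ _).trans
    (mul_le_mul (h3.trans (mul_le_mul_of_nonneg_left hRb (by positivity))) h2 (norm_nonneg _)
      (by positivity))) ((ContinuousLinearMap.le_opNorm _ _).trans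
    (mul_le_mul h1 (h4.trans (mul_le_mul_of_nonneg_right (mul_le_mul_of_nonneg_left hRb
      (by positivity)) (norm_nonneg _))) (norm_nonneg _) (by positivity)))).trans (le_of_eq ?_)
  ring

lemma norm_frozen_le {x b : H →L[ℂ] H} (hx : x ∈ M) (hb : b ∈ M) :
    ‖frozen Ω z x (θ' (R b))‖ ≤ (2 + 2 * k) * ε * ‖x‖ * ‖b‖ * ‖z Ω‖ := by
  have h1 := hX.norm_delVec_sub_frozen_le hx hb
  have h2 := hX.norm_delVec_sel_le hx hb
  have h3 := norm_le_norm_add_norm_sub (delVec R Ω z (θ x) b) (frozen Ω z x (θ' (R b)))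
  have hkk : 2 * k ^ 2 * d * ε * ‖x‖ * ‖b‖ * ‖z Ω‖ ≤ 2 * k * ε * ‖x‖ * ‖b‖ * ‖z Ω‖ := by
    have := hX.close.ε_nonneg
    have := hX.k_nonneg
    calc 2 * k ^ 2 * d * ε * ‖x‖ * ‖b‖ * ‖z Ω‖
        = (k * d) * (2 * k * ε * ‖x‖ * ‖b‖ * ‖z Ω‖) := by ring
      _ ≤ 1 * (2 * k * ε * ‖x‖ * ‖b‖ * ‖z Ω‖) :=
          mul_le_mul_of_nonneg_right hX.kd (by positivity)
      _ = _ := one_mul _
  linarith

/-- The defect of `delVec` as a two-cocycle. -/
lemma norm_cocycle_le {x b c : H →L[ℂ] H} (hx : x ∈ M) (hb : b ∈ M) (hc : c ∈ M) :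
    ‖x (delVec R Ω z (θ b) c) - delVec R Ω z (θ (x * b)) c + delVec R Ω z (θ x) (b * c)
      - R c (delVec R Ω z (θ x) b)‖ ≤
      (6 * k + 2 * k ^ 2) * d * ε * ‖x‖ * ‖b‖ * ‖c‖ * ‖z Ω‖ := by
  have hS := hX.close.std
  have hd := hX.close.d_nonneg
  have he := hX.close.ε_nonneg
  have hk := hX.k_nonneg
  have hz := hX.piece
  have hzb : b (z Ω) = R b (z Ω) := by
    rw [hX.close.comm_piece_left hz hb, hX.close.comm_piece_right hz hb, hS.right_apply b hb]
  have hid : x (delVec R Ω z (θ b) c) - delVec R Ω z (θ (x * b)) c + delVec R Ω z (θ x) (b * c)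
      - R c (delVec R Ω z (θ x) b) =
      -((θ x - x) (delVec R Ω z (θ b) c)) - delVec R Ω z (θ (x * b) - θ x * θ b) c
      - ((θ x - x) (R c ((θ b - b) (z Ω))) - R c ((θ x - x) ((θ b - b) (z Ω)))) := by
    simp only [delVec, sub_apply, map_sub, mul_apply_eq_comp, (hX.right b hb c hc).1,
      hS.comm_right hx hc, hzb]
    abel
  have hmid : ‖θ (x * b) - θ x * θ b‖ ≤ 4 * (k * d) * (‖x‖ * ‖b‖) := by
    have e1 := hX.sel.near (x * b) (mul_mem hx hb)
    have e2 : ‖x * b - θ x * θ b‖ ≤ k * d * ‖x‖ * ‖b‖ + 2 * ‖x‖ * (k * d * ‖b‖) := by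
      rw [show x * b - θ x * θ b = (x - θ x) * b + θ x * (b - θ b) by noncomm_ring]
      refine (norm_add_le _ _).trans (add_le_add ((norm_mul_le _ _).trans ?_)
        ((norm_mul_le _ _).trans (mul_le_mul (hX.norm_sel_le hx) ?_ (norm_nonneg _) (by positivity))))
      · rw [norm_sub_rev]; exact mul_le_mul_of_nonneg_right (hX.sel.near x hx) (norm_nonneg _)
      · rw [norm_sub_rev]; exact hX.sel.near b hb
    have e3 := norm_sub_le_norm_sub_add_norm_sub (θ (x * b)) (x * b) (θ x * θ b)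
    have e4 : k * d * ‖x * b‖ ≤ k * d * (‖x‖ * ‖b‖) :=
      mul_le_mul_of_nonneg_left (norm_mul_le _ _) (by positivity)
    linarith
  have hv : ‖R c ((θ b - b) (z Ω))‖ ≤ ‖c‖ * (k * ε * ‖b‖ * ‖z Ω‖) :=
    (hX.right.norm_apply_le hc _).trans (mul_le_mul_of_nonneg_left (hX.sel.vec b hb) (norm_nonneg _))
  have b1 : ‖(θ x - x) (delVec R Ω z (θ b) c)‖ ≤
      k * d * ‖x‖ * (2 * ε * ‖b‖ * ‖c‖ * ‖z Ω‖) :=
    ((θ x - x).le_opNorm _).trans (mul_le_mul (hX.sel.near x hx) (hX.norm_delVec_sel_le hb hc)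
      (norm_nonneg _) (by positivity))
  have b2 : ‖delVec R Ω z (θ (x * b) - θ x * θ b) c‖ ≤
      ε * (4 * (k * d) * (‖x‖ * ‖b‖)) * ‖c‖ * ‖z Ω‖ := by
    refine (hX.norm_delVec_le (sub_mem (hX.sel.mem _ (mul_mem hx hb))
      (mul_mem (hX.sel.mem x hx) (hX.sel.mem b hb))) hc).trans ?_
    gcongr
  have b3 : ‖(θ x - x) (R c ((θ b - b) (z Ω)))‖ ≤
      k * d * ‖x‖ * (‖c‖ * (k * ε * ‖b‖ * ‖z Ω‖)) :=
    ((θ x - x).le_opNorm _).trans (mul_le_mul (hX.sel.near x hx) hv (norm_nonneg _) (by positivity))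
  have b4 : ‖R c ((θ x - x) ((θ b - b) (z Ω)))‖ ≤
      ‖c‖ * (k * d * ‖x‖ * (k * ε * ‖b‖ * ‖z Ω‖)) :=
    (hX.right.norm_apply_le hc _).trans (mul_le_mul_of_nonneg_left (((θ x - x).le_opNorm _).trans
      (mul_le_mul (hX.sel.near x hx) (hX.sel.vec b hb) (norm_nonneg _) (by positivity)))
      (norm_nonneg _))
  rw [hid]
  refine ((norm_sub_le _ _).trans (add_le_add ((norm_sub_le _ _).trans (add_le_add
    ((norm_neg _).le.trans b1) b2)) ((norm_sub_le _ _).trans (add_le_add b3 b4)))).trans (le_of_eq ?_)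
  ring

omit hX in
lemma cocV_eq (g h : uGroup M) :
    cocV R Ω θ z g h = R (star (uop (g * h))) (delVec R Ω z (θ (uop g)) (uop h)) := rfl

lemma norm_cocV_le (g h : uGroup M) : ‖cocV R Ω θ z g h‖ ≤ 2 * ε * ‖z Ω‖ := by
  rw [cocV_eq, RightAlg.norm_right_star_uop hX.close.std hX.right]
  refine (hX.norm_delVec_sel_le (uop_mem g) (uop_mem h)).trans ?_
  have := hX.close.ε_nonneg
  calc 2 * ε * ‖uop g‖ * ‖uop h‖ * ‖z Ω‖ ≤ 2 * ε * 1 * 1 * ‖z Ω‖ := by
        gcongr <;> exact norm_uop_le _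
    _ = _ := by ring

lemma isApproxCocycle :
    IsApproxCocycle (conjRep hX.close.std hX.right) (cocV R Ω θ z)
      ((6 * k + 2 * k ^ 2) * d * ε * ‖z Ω‖) := by
  intro g h l
  have hS := hX.close.std
  have hR := hX.right
  have e1 : conjRep hS hR g (cocV R Ω θ z h l) =
      R (star (uop (g * h * l))) (uop g (delVec R Ω z (θ (uop h)) (uop l))) := by
    rw [conjRep_apply, cocV_eq, hR.apply_mul (star_mem (uop_mem g)) (star_mem (uop_mem _)),
      ← star_mul, ← uop_mul, ← mul_assoc,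
      hS.comm_right (uop_mem g) (star_mem (uop_mem _))]
  have e2 : cocV R Ω θ z g h =
      R (star (uop (g * h * l))) (R (uop l) (delVec R Ω z (θ (uop g)) (uop h))) := by
    rw [cocV_eq, hR.apply_mul (star_mem (uop_mem _)) (uop_mem l)]
    congr 2
    rw [uop_mul (g * h) l, star_mul, ← mul_assoc, uop_mul_star, one_mul]
  rw [e1, e2, cocV_eq, cocV_eq, mul_assoc g h l, ← map_sub, ← map_add, ← map_sub,
    RightAlg.norm_right_star_uop hS hR, uop_mul g h, uop_mul h l]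
  refine (hX.norm_cocycle_le (uop_mem g) (uop_mem h) (uop_mem l)).trans ?_
  have := hX.close.ε_nonneg
  have := hX.close.d_nonneg
  have := hX.k_nonneg
  calc _ ≤ (6 * k + 2 * k ^ 2) * d * ε * 1 * 1 * 1 * ‖z Ω‖ := by
        gcongr <;> exact norm_uop_le _
    _ = _ := by ring

end Ctx

end Vale.Agent.P096.KK
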