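import Vale.Agent.P096.KK.Gauge.Size

/-!
# P096: a finite family of pairs is one pair of block diagonal matrices
-/

noncomputable section

namespace Vale.Agent.P096.KK

open scoped InnerProductSpace
open Finset hiding sum_apply

universe u

variable {H : Type u} [NormedAddCommGroup H] [InnerProductSpace ℂ H] [CompleteSpace H]
variable {M : VonNeumannAlgebra H} {Ω : H} {R : (H →L[ℂ] H) → (H →L[ℂ] H)}
  {N : Subalgebra ℂ (H →L[ℂ] H)}

/-- The residual of a gauge at an entry, before normalisation. -/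
def entryRes (R : (H →L[ℂ] H) → (H →L[ℂ] H)) (Ω : H) (z : H →L[ℂ] H)
    (a : (H →L[ℂ] H) →ₗ[ℂ] H) {m : ℕ} (X n Y : Fin m → Fin m → H →L[ℂ] H) (i k : Fin m) : H :=
  ∑ j, (gaugeD R a (X i j) (Y j k) - delVec R Ω z (n i j) (Y j k))

section Entries

variable {m : ℕ} [NeZero m]

/-- `sqGauge a` as a linear map. -/
def sqLin (a : (H →L[ℂ] H) →ₗ[ℂ] H) : (Sq H m →L[ℂ] Sq H m) →ₗ[ℂ] Sq H m :=
  IsLinearMap.mk' (sqGauge a) ⟨fun S T => by
      simp [sqGauge, lEnt, Finset.smul_sum, ← Finset.sum_add_distrib, smul_add],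
    fun c T => by simp [sqGauge, lEnt, Finset.smul_sum, smul_comm c]⟩

lemma sqLin_apply (a : (H →L[ℂ] H) →ₗ[ℂ] H) (T : Sq H m →L[ℂ] Sq H m) :
    sqLin a T = sqGauge a T := rfl

lemma resid_mL_apply (hS : Std M Ω R) {z : H →L[ℂ] H} (a : (H →L[ℂ] H) →ₗ[ℂ] H)
    (X n Y : Fin m → Fin m → H →L[ℂ] H) (i k : Fin m) :
    (gaugeD (sqR R m) (sqLin a) (mL X) (mL Y) -
      delVec (sqR R m) (sqVec m Ω) (sdiag m z) (mL n) (mL Y)) (i, k) =
      ((Real.sqrt m)⁻¹ : ℂ) • entryRes R Ω z a X n Y i k := by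
  have h0R : R 0 = 0 := by simpa using hS.right_smul (0 : ℂ) (zero_mem M)
  have e1 : ∀ j, R (Y j k) (sdiag m z (sqVec m Ω) (i, j)) =
      if i = j then ((Real.sqrt m)⁻¹ : ℂ) • R (Y j k) (z Ω) else 0 := fun j => by
    rw [sdiag_sqVec]; split_ifs <;> simp
  have e2 : ∀ j l, R (Y j k) (n i l (sdiag m z (sqVec m Ω) (l, j))) =
      if l = j then ((Real.sqrt m)⁻¹ : ℂ) • R (Y j k) (n i l (z Ω)) else 0 := fun j l => by
    rw [sdiag_sqVec]; split_ifs <;> simp
  have e3 : ∀ j l, R (Y l k) (sdiag m z (sqVec m Ω) (j, l)) =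
      if j = l then ((Real.sqrt m)⁻¹ : ℂ) • R (Y l k) (z Ω) else 0 := fun j l => by
    rw [sdiag_sqVec]; split_ifs <;> simp
  simp only [PiLp.sub_apply, PiLp.add_apply, gaugeD, sqLin_apply, delVec, mL_apply,
    sqR_mL_apply, sqGauge_apply, lEnt_mL, mL_mul, mMul, map_sum, map_smul, e2, e3,
    Finset.sum_ite_eq, Finset.sum_ite_eq', Finset.mem_univ, if_true, entryRes, Finset.smul_sum,
    smul_sub, smul_add, Finset.sum_sub_distrib, Finset.sum_add_distrib]

end Entries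

section Block

variable {B : Type} [Fintype B] {mb : B → ℕ} {L : ℕ} (e : (Σ b, Fin (mb b)) ≃ Fin L)

/-- The block diagonal matrix. -/
def blk (X : ∀ b, Fin (mb b) → Fin (mb b) → H →L[ℂ] H) : Fin L → Fin L → H →L[ℂ] H :=
  fun p q => ∑ c, if e ⟨(e.symm p).1, c⟩ = q then X _ (e.symm p).2 c else 0

lemma blk_apply (X : ∀ b, Fin (mb b) → Fin (mb b) → H →L[ℂ] H) (b : B) (i : Fin (mb b))
    (q : Fin L) : blk e X (e ⟨b, i⟩) q = ∑ c, if e ⟨b, c⟩ = q then X b i c else 0 := by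
  have key : ∀ u : Σ b, Fin (mb b), u = ⟨b, i⟩ →
      (∑ c, if e ⟨u.1, c⟩ = q then X u.1 u.2 c else 0) = ∑ c, if e ⟨b, c⟩ = q then X b i c else 0 := by
    rintro _ rfl; rfl
  exact key _ (e.symm_apply_apply _)

lemma blk_same (X : ∀ b, Fin (mb b) → Fin (mb b) → H →L[ℂ] H) (b : B) (i k : Fin (mb b)) :
    blk e X (e ⟨b, i⟩) (e ⟨b, k⟩) = X b i k := by
  rw [blk_apply, Finset.sum_eq_single k (fun c _ hc => by simp [hc])
    (fun h => absurd (Finset.mem_univ _) h), if_pos rfl]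

lemma blk_ne (X : ∀ b, Fin (mb b) → Fin (mb b) → H →L[ℂ] H) {b b' : B} (h : b ≠ b')
    (i : Fin (mb b)) (k : Fin (mb b')) : blk e X (e ⟨b, i⟩) (e ⟨b', k⟩) = 0 := by
  rw [blk_apply]
  exact Finset.sum_eq_zero fun c _ => by simp [h]

lemma exists_block (p : Fin L) : ∃ b i, e ⟨b, i⟩ = p :=
  ⟨(e.symm p).1, (e.symm p).2, e.apply_symm_apply p⟩

lemma sum_block {β : Type*} [AddCommMonoid β] (f : Fin L → β) :
    ∑ p, f p = ∑ b, ∑ i, f (e ⟨b, i⟩) := by
  rw [← e.sum_comp f, Fintype.sum_sigma]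

lemma blk_mem {S : Set (H →L[ℂ] H)} (h0 : (0 : H →L[ℂ] H) ∈ S)
    {X : ∀ b, Fin (mb b) → Fin (mb b) → H →L[ℂ] H} (hX : ∀ b i k, X b i k ∈ S) (p q : Fin L) :
    blk e X p q ∈ S := by
  obtain ⟨b, i, rfl⟩ := exists_block e p
  obtain ⟨b', k, rfl⟩ := exists_block e q
  by_cases h : b = b'
  · subst h; rw [blk_same]; exact hX b i k
  · rw [blk_ne e X h]; exact h0

lemma mMul_blk (X Y : ∀ b, Fin (mb b) → Fin (mb b) → H →L[ℂ] H) :
    mMul (blk e X) (blk e Y) = blk e fun b => mMul (X b) (Y b) := by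
  funext p q
  obtain ⟨b, i, rfl⟩ := exists_block e p
  obtain ⟨b', k, rfl⟩ := exists_block e q
  rw [mMul, sum_block e]
  by_cases h : b = b'
  · subst h
    rw [blk_same, Finset.sum_eq_single b (fun c _ hc => Finset.sum_eq_zero fun j _ => by
      rw [blk_ne e X (Ne.symm hc), zero_mul]) (fun h => absurd (Finset.mem_univ _) h)]
    simp only [blk_same, mMul]
  · rw [blk_ne e _ h]
    refine Finset.sum_eq_zero fun c _ => Finset.sum_eq_zero fun j _ => ?_
    by_cases hc : b = c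
    · subst hc; rw [blk_ne e Y h, mul_zero]
    · rw [blk_ne e X hc, zero_mul]

lemma blk_one :
    blk e (fun b => fun i k : Fin (mb b) => if i = k then (1 : H →L[ℂ] H) else 0) =
      fun p q => if p = q then 1 else 0 := by
  funext p q
  obtain ⟨b, i, rfl⟩ := exists_block e p
  obtain ⟨b', k, rfl⟩ := exists_block e q
  by_cases h : b = b'
  · subst h; rw [blk_same]; simp
  · rw [blk_ne e _ h, if_neg (fun he => h (congrArg Sigma.fst (e.injective he)))]

lemma star_blk (X : ∀ b, Fin (mb b) → Fin (mb b) → H →L[ℂ] H) :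
    (fun p q => star (blk e X q p)) = blk e fun b => fun i k => star (X b k i) := by
  funext p q
  obtain ⟨b, i, rfl⟩ := exists_block e p
  obtain ⟨b', k, rfl⟩ := exists_block e q
  by_cases h : b = b'
  · subst h; rw [blk_same, blk_same]
  · rw [blk_ne e _ h, blk_ne e _ (Ne.symm h), star_zero]

lemma blk_sub (X Y : ∀ b, Fin (mb b) → Fin (mb b) → H →L[ℂ] H) :
    blk e X - blk e Y = blk e fun b => X b - Y b := by
  funext p q
  obtain ⟨b, i, rfl⟩ := exists_block e p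
  obtain ⟨b', k, rfl⟩ := exists_block e q
  by_cases h : b = b'
  · subst h; simp only [Pi.sub_apply, blk_same]
  · simp only [Pi.sub_apply, blk_ne e _ h, sub_zero]

variable [∀ b, NeZero (mb b)]

lemma norm_mL_blk_le (X : ∀ b, Fin (mb b) → Fin (mb b) → H →L[ℂ] H) {C : ℝ} (hC : 0 ≤ C)
    (h : ∀ b, ‖mL (X b)‖ ≤ C) : ‖mL (blk e X)‖ ≤ C := by
  refine ContinuousLinearMap.opNorm_le_bound _ hC fun v => ?_
  refine le_of_pow_le_pow_left₀ two_ne_zero (by positivity) ?_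
  rw [mul_pow, PiLp.norm_sq_eq_of_L2, PiLp.norm_sq_eq_of_L2, Fintype.sum_prod_type,
    Fintype.sum_prod_type, Finset.sum_comm, Finset.sum_comm (f := fun i k => ‖v (i, k)‖ ^ 2),
    Finset.mul_sum]
  refine Finset.sum_le_sum fun k _ => ?_
  rw [sum_block e, sum_block e, Finset.mul_sum]
  refine Finset.sum_le_sum fun b _ => ?_
  set w : Sq H (mb b) := WithLp.toLp 2 fun p => if p.2 = 0 then v (e ⟨b, p.1⟩, k) else 0 with hw
  have h1 : ∀ i, mL (blk e X) v (e ⟨b, i⟩, k) = mL (X b) w (i, 0) := fun i => by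
    rw [mL_apply, mL_apply, sum_block e, Finset.sum_eq_single b (fun c _ hc =>
      Finset.sum_eq_zero fun j _ => by rw [blk_ne e X (Ne.symm hc)]; rfl)
      (fun h => absurd (Finset.mem_univ _) h)]
    exact Finset.sum_congr rfl fun j _ => by simp [blk_same, hw]
  have h2 : ‖w‖ ^ 2 = ∑ i, ‖v (e ⟨b, i⟩, k)‖ ^ 2 := by
    rw [PiLp.norm_sq_eq_of_L2, Fintype.sum_prod_type]
    refine Finset.sum_congr rfl fun i _ => ?_
    rw [Finset.sum_eq_single (0 : Fin (mb b)) (fun c _ hc => by simp [hw, hc])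
      (fun h => absurd (Finset.mem_univ _) h)]
    simp [hw]
  simp only [h1]
  rw [← h2]
  have h3 : ‖mL (X b) w‖ ^ 2 ≤ C ^ 2 * ‖w‖ ^ 2 := by
    rw [← mul_pow]
    exact pow_le_pow_left₀ (norm_nonneg _)
      (((mL (X b)).le_opNorm w).trans (mul_le_mul_of_nonneg_right (h b) (norm_nonneg _))) 2
  refine le_trans ?_ h3
  rw [PiLp.norm_sq_eq_of_L2, Fintype.sum_prod_type]
  exact Finset.sum_le_sum fun i _ =>
    Finset.single_le_sum (f := fun c => ‖mL (X b) w (i, c)‖ ^ 2) (fun c _ => sq_nonneg _)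
      (Finset.mem_univ _)

variable [NeZero L]

/-- The residual of the block matrix dominates the weighted residuals of the blocks. -/
lemma sum_resid_blk_le (hS : Std M Ω R) {z : H →L[ℂ] H} (a : (H →L[ℂ] H) →ₗ[ℂ] H)
    (X n Y : ∀ b, Fin (mb b) → Fin (mb b) → H →L[ℂ] H) :
    ∑ b, ∑ i, ∑ k, ‖entryRes R Ω z a (X b) (n b) (Y b) i k‖ ^ 2 ≤
      ∑ p, ∑ q, ‖entryRes R Ω z a (blk e X) (blk e n) (blk e Y) p q‖ ^ 2 := by
  have h0R : R 0 = 0 := by simpa using hS.right_smul (0 : ℂ) (zero_mem M)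
  rw [sum_block e]
  refine Finset.sum_le_sum fun b _ => Finset.sum_le_sum fun i _ => ?_
  rw [sum_block e]
  refine le_trans (Finset.sum_le_sum fun k _ => le_of_eq ?_)
    (Finset.single_le_sum (f := fun c => ∑ k, ‖entryRes R Ω z a (blk e X) (blk e n) (blk e Y)
      (e ⟨b, i⟩) (e ⟨c, k⟩)‖ ^ 2) (fun c _ => Finset.sum_nonneg fun k _ => sq_nonneg _)
      (Finset.mem_univ b))
  congr 2
  rw [entryRes, entryRes, sum_block e, Finset.sum_eq_single b (fun c _ hc =>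
      Finset.sum_eq_zero fun j _ => by
        simp [blk_ne e _ (Ne.symm hc), gaugeD, delVec, h0R])
      (fun h => absurd (Finset.mem_univ _) h)]
  simp only [blk_same]

end Block

end Vale.Agent.P096.KK
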