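import Mathlib

/-!
# P096: finitely many convex functions which are small on every weighted average
-/

noncomputable section

namespace Vale.Agent.P096.KK

open Finset

/-- If every integer weighting of finitely many bounded convex functions on a convex set is
nowhere positive at some point, then some point makes all of them less than any positive number. -/
lemma exists_forall_le_of_weights {A : Type*} [AddCommGroup A] [Module ℝ A] {C : Set A}
    (hC : Convex ℝ C) (hne : C.Nonempty) {I : Type*} [Fintype I] (f : I → A → ℝ)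
    (hconv : ∀ i, ConvexOn ℝ C (f i)) {Bd : ℝ} (hbd : ∀ i, ∀ a ∈ C, |f i a| ≤ Bd)
    (h : ∀ w : I → ℕ, 0 < ∑ i, w i → ∃ a ∈ C, ∑ i, (w i : ℝ) * f i a ≤ 0) {s : ℝ} (hs : 0 < s) :
    ∃ a ∈ C, ∀ i, f i a ≤ s := by
  classical
  by_contra hcon
  push Not at hcon
  let T : Set (I → ℝ) := {y | ∃ a ∈ C, ∀ i, f i a ≤ y i}
  let O : Set (I → ℝ) := Set.univ.pi fun _ => Set.Iio s
  have hT : Convex ℝ T := by
    rintro y₁ ⟨a₁, ha₁, h₁⟩ y₂ ⟨a₂, ha₂, h₂⟩ p q hp hq hpq
    refine ⟨p • a₁ + q • a₂, hC ha₁ ha₂ hp hq hpq, fun i => ?_⟩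
    refine ((hconv i).2 ha₁ ha₂ hp hq hpq).trans ?_
    simp only [Pi.add_apply, Pi.smul_apply, smul_eq_mul]
    gcongr
    · exact h₁ i
    · exact h₂ i
  have hO : Convex ℝ O := convex_pi fun i _ => convex_Iio s
  have hOo : IsOpen O := isOpen_set_pi Set.finite_univ fun i _ => isOpen_Iio
  have hdisj : Disjoint O T := Set.disjoint_left.2 fun y hy ⟨a, ha, hle⟩ => by
    obtain ⟨i, hi⟩ := hcon a ha
    have : y i < s := hy i (Set.mem_univ _)
    linarith [hle i]
  obtain ⟨g, u, hgO, hgT⟩ := geometric_hahn_banach_open hO hOo hT hdisj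
  set lam : I → ℝ := fun i => g (Pi.single i 1) with hlam
  have hg : ∀ y : I → ℝ, g y = ∑ i, y i * lam i := fun y => by
    conv_lhs => rw [pi_eq_sum_univ' y, map_sum]
    simp [hlam]
  have hlam0 : ∀ i, 0 ≤ lam i := by
    intro i
    by_contra hi
    push Not at hi
    have h0 := hgO 0 (fun j _ => hs)
    rw [map_zero] at h0
    have h1 : (fun j => if j = i then u / lam i else 0) ∈ O := fun j _ => by
      show (if j = i then u / lam i else 0) < s
      split_ifs
      · exact (div_neg_of_pos_of_neg h0 hi).trans hs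
      · exact hs
    have h2 := hgO _ h1
    rw [hg, Finset.sum_eq_single i (fun j _ hj => by simp [hj])
      (fun h => absurd (Finset.mem_univ _) h), if_pos rfl, div_mul_cancel₀ _ hi.ne] at h2
    exact lt_irrefl _ h2
  have hu : s / 2 * ∑ i, lam i < u := by
    have := hgO (fun _ => s / 2) (fun j _ => show s / 2 < s by linarith)
    rwa [hg, ← Finset.mul_sum] at this
  have hlow : ∀ a ∈ C, u ≤ ∑ i, lam i * f i a := fun a ha => by
    have := hgT (fun i => f i a) ⟨a, ha, fun i => le_rfl⟩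
    rw [hg] at this
    exact this.trans (le_of_eq (Finset.sum_congr rfl fun i _ => mul_comm _ _))
  have hΛ : 0 < ∑ i, lam i := by
    rcases (Finset.sum_nonneg fun i _ => hlam0 i).lt_or_eq with h' | h'
    · exact h'
    · exfalso
      obtain ⟨a, ha⟩ := hne
      have hz : ∀ i, lam i = 0 := fun i =>
        (Finset.sum_eq_zero_iff_of_nonneg fun j _ => hlam0 j).1 h'.symm i (Finset.mem_univ _)
      have h0 := hgO 0 (fun j _ => hs)
      rw [map_zero] at h0
      have := hlow a ha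
      simp only [hz, zero_mul, Finset.sum_const_zero] at this
      linarith
  obtain ⟨Q, hQ⟩ := exists_nat_gt ((Fintype.card I : ℝ) * Bd / (s / 2 * ∑ i, lam i))
  have hBd : 0 ≤ Bd := by
    obtain ⟨a, ha⟩ := hne
    obtain ⟨i, -⟩ := hcon a ha
    exact (abs_nonneg _).trans (hbd i a ha)
  have hpos : 0 < s / 2 * ∑ i, lam i := mul_pos (by linarith) hΛ
  have hQ0 : (0 : ℝ) < Q := lt_of_le_of_lt (by positivity) hQ
  let w : I → ℕ := fun i => ⌈(Q : ℝ) * lam i⌉₊
  have hw : 0 < ∑ i, w i := by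
    obtain ⟨i, -, hi⟩ := Finset.exists_ne_zero_of_sum_ne_zero hΛ.ne'
    exact lt_of_lt_of_le (Nat.ceil_pos.2 (mul_pos hQ0 (lt_of_le_of_ne (hlam0 i) (Ne.symm hi))))
      (Finset.single_le_sum (f := w) (fun j _ => Nat.zero_le _) (Finset.mem_univ i))
  obtain ⟨a, ha, hle⟩ := h w hw
  have hdiff : ∑ i, ((Q : ℝ) * lam i) * f i a ≤ ∑ i, (w i : ℝ) * f i a + (Fintype.card I : ℝ) * Bd := by
    rw [show (Fintype.card I : ℝ) * Bd = ∑ _i : I, Bd by simp, ← Finset.sum_add_distrib]
    refine Finset.sum_le_sum fun i _ => ?_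
    have h1 : 0 ≤ (Q : ℝ) * lam i := mul_nonneg hQ0.le (hlam0 i)
    have h2 := Nat.le_ceil ((Q : ℝ) * lam i)
    have h3 := Nat.ceil_lt_add_one h1
    have h4 := abs_le.1 (hbd i a ha)
    show _ ≤ ((⌈(Q : ℝ) * lam i⌉₊ : ℕ) : ℝ) * f i a + Bd
    nlinarith
  have h5 : (Q : ℝ) * u ≤ ∑ i, ((Q : ℝ) * lam i) * f i a := by
    refine (mul_le_mul_of_nonneg_left (hlow a ha) hQ0.le).trans (le_of_eq ?_)
    rw [Finset.mul_sum]
    exact Finset.sum_congr rfl fun i _ => by ring
  rw [div_lt_iff₀ hpos] at hQ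
  nlinarith [mul_lt_mul_of_pos_left hu hQ0]

end Vale.Agent.P096.KK
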