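import Vale.Agent.P096.KK.Gauge.Block
import Vale.Agent.P096.KK.Gauge.Minimax

/-!
# P096: one gauge for finitely many pairs at several sizes, then for all pairs
-/

noncomputable section

namespace Vale.Agent.P096.KK

open scoped InnerProductSpace
open Finset hiding sum_apply

universe u

variable {H : Type u} [NormedAddCommGroup H] [InnerProductSpace ℂ H] [CompleteSpace H]
variable {M : VonNeumannAlgebra H} {Ω : H} {R : (H →L[ℂ] H) → (H →L[ℂ] H)}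
  {N : Subalgebra ℂ (H →L[ℂ] H)} {P : Set (H →L[ℂ] H)} {d ε : ℝ}

/-- The admissible gauges. -/
def gaugeSet (M : VonNeumannAlgebra H) (R : (H →L[ℂ] H) → (H →L[ℂ] H))
    (𝔊 : Finset (H →L[ℂ] H)) (C : ℝ) : Set ((H →L[ℂ] H) →ₗ[ℂ] H) :=
  {a | a 1 = 0 ∧ (∀ g ∈ 𝔊, ∀ x ∈ M, a (g * x) = g (a x) ∧ a (x * g) = R g (a x)) ∧
    ∀ x ∈ M, ‖a x‖ ≤ C * ‖x‖}

lemma convex_gaugeSet (𝔊 : Finset (H →L[ℂ] H)) (C : ℝ) : Convex ℝ (gaugeSet M R 𝔊 C) := by
  rintro a ⟨a1, a2, a3⟩ b ⟨b1, b2, b3⟩ p q hp hq hpq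
  refine ⟨by simp [a1, b1], fun g hg x hx => ⟨?_, ?_⟩, fun x hx => ?_⟩
  · simp [(a2 g hg x hx).1, (b2 g hg x hx).1, ContinuousLinearMap.map_smul_of_tower]
  · simp [(a2 g hg x hx).2, (b2 g hg x hx).2, ContinuousLinearMap.map_smul_of_tower]
  · simp only [LinearMap.add_apply, LinearMap.smul_apply]
    refine (norm_add_le _ _).trans ?_
    rw [norm_smul, norm_smul, Real.norm_of_nonneg hp, Real.norm_of_nonneg hq]
    calc p * ‖a x‖ + q * ‖b x‖ ≤ p * (C * ‖x‖) + q * (C * ‖x‖) :=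
          add_le_add (mul_le_mul_of_nonneg_left (a3 x hx) hp) (mul_le_mul_of_nonneg_left (b3 x hx) hq)
      _ = _ := by rw [← add_mul, hpq, one_mul]

lemma zero_mem_gaugeSet (𝔊 : Finset (H →L[ℂ] H)) {C : ℝ} (hC : 0 ≤ C) :
    (0 : (H →L[ℂ] H) →ₗ[ℂ] H) ∈ gaugeSet M R 𝔊 C :=
  ⟨rfl, fun g _ x _ => by simp, fun x _ => by simp; positivity⟩

/-- A test pair of unitaries at some size. -/
structure Test (M : VonNeumannAlgebra H) where
  m : ℕ
  hm : NeZero m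
  U : uGroup (sqM M m)
  V : uGroup (sqM M m)

attribute [instance] Test.hm

/-- The residual of a gauge at a test. -/
def Test.res (R : (H →L[ℂ] H) → (H →L[ℂ] H)) (Ω : H) (z : H →L[ℂ] H)
    (θ : ∀ m : ℕ, (Sq H m →L[ℂ] Sq H m) → (Sq H m →L[ℂ] Sq H m)) (a : (H →L[ℂ] H) →ₗ[ℂ] H)
    (τ : Test M) : Sq H τ.m :=
  gaugeD (sqR R τ.m) (sqLin a) (uop τ.U) (uop τ.V) -
    delVec (sqR R τ.m) (sqVec τ.m Ω) (sdiag τ.m z) (θ τ.m (uop τ.U)) (uop τ.V)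

/-- What the selections and the gauge for one pair provide at one piece. -/
structure Provider (M : VonNeumannAlgebra H) (Ω : H) (R : (H →L[ℂ] H) → (H →L[ℂ] H))
    (N : Subalgebra ℂ (H →L[ℂ] H)) (z : H →L[ℂ] H) (𝔊 : Finset (H →L[ℂ] H))
    (θ : ∀ m : ℕ, (Sq H m →L[ℂ] Sq H m) → (Sq H m →L[ℂ] Sq H m)) (k d ε C err : ℝ) : Prop where
  bicent : cent (cent N) = N
  std : Std M Ω R
  group : GroupData M R N 𝔊
  C_nonneg : 0 ≤ C
  err_nonneg : 0 ≤ err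
  stdSq : ∀ (m : ℕ) [NeZero m], Std (sqM M m) (sqVec m Ω) (sqR R m)
  mem : ∀ (m : ℕ) [NeZero m], ∀ x ∈ sqM M m, θ m x ∈ sqN N m
  near : ∀ (m : ℕ) [NeZero m], ∀ x ∈ sqM M m, ‖θ m x - x‖ ≤ k * d * ‖x‖
  small : ∀ (m : ℕ) [NeZero m], ∀ n ∈ sqN N m, ∀ b ∈ sqM M m,
    ‖delVec (sqR R m) (sqVec m Ω) (sdiag m z) n b‖ ≤ ε * ‖n‖ * ‖b‖ * ‖z Ω‖
  kd_nonneg : 0 ≤ k * d
  eps_nonneg : 0 ≤ ε
  pair : ∀ (m : ℕ) [NeZero m] (U V : uGroup (sqM M m)),
    ∃ A : (Sq H m →L[ℂ] Sq H m) →ₗ[ℂ] Sq H m, A 1 = 0 ∧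
      (∀ g ∈ monoSet m 𝔊, ∀ T ∈ sqM M m, A (g * T) = g (A T) ∧ A (T * g) = sqR R m g (A T)) ∧
      (∀ T ∈ sqM M m, ‖A T‖ ≤ C * ‖T‖) ∧
      ‖gaugeD (sqR R m) A (uop U) (uop V) -
        delVec (sqR R m) (sqVec m Ω) (sdiag m z) (θ m (uop U)) (uop V)‖ ≤ err

variable {z : H →L[ℂ] H} {𝔊 : Finset (H →L[ℂ] H)}
  {θ : ∀ m : ℕ, (Sq H m →L[ℂ] Sq H m) → (Sq H m →L[ℂ] Sq H m)} {k C err : ℝ}

section LEnt

variable {m : ℕ} [NeZero m]

lemma lEnt_mul {S T : Sq H m →L[ℂ] Sq H m} (hS : S ∈ sqM M m) (hT : T ∈ sqM M m) :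
    mMul (lEnt S) (lEnt T) = lEnt (S * T) := by
  funext i k
  conv_rhs => rw [← Flatten.mL_lEnt hS, ← Flatten.mL_lEnt hT, mL_mul, lEnt_mL]

lemma lEnt_star {T : Sq H m →L[ℂ] Sq H m} (hT : T ∈ sqM M m) :
    (fun i k => star (lEnt T k i)) = lEnt (star T) := by
  funext i k
  conv_rhs => rw [← Flatten.mL_lEnt hT, star_mL, lEnt_mL]

lemma lEnt_one : lEnt (1 : Sq H m →L[ℂ] Sq H m) = fun i k => if i = k then 1 else 0 := by
  funext i k
  rw [← mL_one, lEnt_mL]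

end LEnt

lemma norm_sq_eq {m : ℕ} [NeZero m] (v : Sq H m) (f : Fin m → Fin m → H)
    (h : ∀ i k, v (i, k) = ((Real.sqrt m)⁻¹ : ℂ) • f i k) :
    (m : ℝ) * ‖v‖ ^ 2 = ∑ i, ∑ k, ‖f i k‖ ^ 2 := by
  rw [PiLp.norm_sq_eq_of_L2, Fintype.sum_prod_type, Finset.mul_sum]
  refine Finset.sum_congr rfl fun i _ => ?_
  rw [Finset.mul_sum]
  refine Finset.sum_congr rfl fun k _ => ?_
  rw [h, norm_smul, mul_pow, norm_inv, Complex.norm_real,
    Real.norm_of_nonneg (Real.sqrt_nonneg _), inv_pow, Real.sq_sqrt (Nat.cast_nonneg m),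
    ← mul_assoc, mul_inv_cancel₀ (Nat.cast_ne_zero.2 (NeZero.ne m)), one_mul]

namespace Provider

variable (hP : Provider M Ω R N z 𝔊 θ k d ε C err)
include hP

/-- Weighted tests. -/
lemma weighted {I : Type} [Fintype I] (τ : I → Test M) (w : I → ℕ) (hw : 0 < ∑ i, w i) :
    ∃ a ∈ gaugeSet M R 𝔊 C, ∑ i, (w i : ℝ) *
      (‖(τ i).res R Ω z θ a‖ - (err + 2 * (k * d) * ε * ‖z Ω‖)) ≤ 0 := by
  classical
  let c : I → ℕ := fun i => w i * ∏ j ∈ Finset.univ.erase i, (τ j).m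
  have hc : ∀ i, c i * (τ i).m = w i * ∏ j, (τ j).m := fun i => by
    simp only [c, mul_assoc]
    rw [mul_comm (∏ j ∈ Finset.univ.erase i, (τ j).m),
      Finset.mul_prod_erase _ (fun j => (τ j).m) (Finset.mem_univ i)]
  let B : Type := Σ i : I, Fin (c i)
  let mb : B → ℕ := fun b => (τ b.1).m
  let e : (Σ b, Fin (mb b)) ≃ Fin (Fintype.card (Σ b, Fin (mb b))) := Fintype.equivFin _
  set L := Fintype.card (Σ b, Fin (mb b)) with hL
  have hLeq : L = (∑ i, w i) * ∏ j, (τ j).m := by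
    rw [hL, Fintype.card_sigma, Fintype.sum_sigma, Finset.sum_mul]
    refine Finset.sum_congr rfl fun i _ => ?_
    simp [mb, hc i]
  have hprod : 0 < ∏ j, (τ j).m := Finset.prod_pos fun j _ => NeZero.pos _
  haveI : NeZero L := ⟨by rw [hLeq]; exact (Nat.mul_pos hw hprod).ne'⟩
  haveI : ∀ b, NeZero (mb b) := fun b => (τ b.1).hm
  let X : ∀ b, Fin (mb b) → Fin (mb b) → H →L[ℂ] H := fun b => lEnt (uop (τ b.1).U)
  let Y : ∀ b, Fin (mb b) → Fin (mb b) → H →L[ℂ] H := fun b => lEnt (uop (τ b.1).V)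
  let Z : ∀ b, Fin (mb b) → Fin (mb b) → H →L[ℂ] H := fun b =>
    lEnt (θ (τ b.1).m (uop (τ b.1).U))
  have mk : ∀ W : ∀ b : B, uGroup (sqM M (mb b)), ∃ u : uGroup (sqM M L),
      uop u = mL (blk e fun b => lEnt (uop (W b))) := by
    intro W
    have hmem : mL (blk e fun b => lEnt (uop (W b))) ∈ sqM M L := mL_mem_sqM fun p q =>
      blk_mem e (S := (M : Set (H →L[ℂ] H))) (zero_mem M) (fun b i k => lEnt_mem (uop_mem _) i k) p q
    suffices hu : mL (blk e fun b => lEnt (uop (W b))) ∈ unitary (Sq H L →L[ℂ] Sq H L) from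
      ⟨⟨⟨_, hu⟩, hmem⟩, rfl⟩
    rw [Unitary.mem_iff]
    constructor
    all_goals rw [star_mL, star_blk, mL_mul, mMul_blk, ← mL_one, ← blk_one e]
    all_goals refine congrArg (fun F => mL (blk e F)) (funext fun b => ?_)
    all_goals rw [lEnt_star (uop_mem _)]
    · rw [lEnt_mul (star_mem (uop_mem _)) (uop_mem _), star_uop_mul, lEnt_one]
    · rw [lEnt_mul (uop_mem _) (star_mem (uop_mem _)), uop_mul_star, lEnt_one]
  obtain ⟨U, hU⟩ := mk fun b => (τ b.1).U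
  obtain ⟨V, hV⟩ := mk fun b => (τ b.1).V
  obtain ⟨A, hA1, hAm, hAC, hAres⟩ := hP.pair L U V
  obtain ⟨a, ha1, ha2, ha3, hA⟩ := exists_base_gauge hP.std (hP.stdSq L) hP.group hP.C_nonneg hA1
    hAm hAC
  refine ⟨a, ⟨ha1, ha2, ha3⟩, ?_⟩
  set nb := mL (blk e Z) with hnb
  have hZ : ∀ b, (∀ i k, Z b i k ∈ N) ∧ mL (Z b) = θ (τ b.1).m (uop (τ b.1).U) := fun b =>
    lEnt_of_sqN hP.bicent (hP.mem _ _ (uop_mem _))
  have hnbN : nb ∈ sqN N L :=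
    mL_mem_sqN fun p q => blk_mem e (S := (N : Set (H →L[ℂ] H))) (zero_mem N) (fun b => (hZ b).1) p q
  have hnbU : ‖nb - uop U‖ ≤ k * d := by
    have : mL (blk e Z) - mL (blk e X) = mL (blk e fun b => Z b - X b) := by
      rw [← blk_sub, eq_comm, eq_sub_iff_add_eq, ← mL_add, sub_add_cancel]
    rw [hnb, hU, this]
    refine norm_mL_blk_le e _ hP.kd_nonneg fun b => ?_
    have e1 : mL (Z b - X b) = θ (τ b.1).m (uop (τ b.1).U) - uop (τ b.1).U := by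
      rw [eq_sub_iff_add_eq]
      conv_lhs => rw [← Flatten.mL_lEnt (uop_mem (τ b.1).U)]
      rw [← mL_add, sub_add_cancel, (hZ b).2]
    rw [e1]
    exact (hP.near _ _ (uop_mem _)).trans (mul_le_of_le_one_right hP.kd_nonneg (norm_uop_le _))
  have hbig : ‖gaugeD (sqR R L) (sqLin a) (uop U) (uop V) -
      delVec (sqR R L) (sqVec L Ω) (sdiag L z) nb (uop V)‖ ≤
        err + 2 * (k * d) * ε * ‖z Ω‖ := by
    have e1 : gaugeD (sqR R L) (sqLin a) (uop U) (uop V) = gaugeD (sqR R L) A (uop U) (uop V) := by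
      simp only [gaugeD, sqLin_apply, hA _ (uop_mem U), hA _ (uop_mem V),
        hA _ (mul_mem (uop_mem U) (uop_mem V))]
    have e2 : delVec (sqR R L) (sqVec L Ω) (sdiag L z) nb (uop V) =
        delVec (sqR R L) (sqVec L Ω) (sdiag L z) (θ L (uop U)) (uop V) +
          delVec (sqR R L) (sqVec L Ω) (sdiag L z) (nb - θ L (uop U)) (uop V) := by
      simp only [delVec, sub_apply, map_sub]; abel
    rw [e1, e2, ← sub_sub]
    refine (norm_sub_le _ _).trans (add_le_add hAres ?_)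
    refine (hP.small _ _ (sub_mem hnbN (hP.mem _ _ (uop_mem U))) _ (uop_mem V)).trans ?_
    have h1 : ‖nb - θ L (uop U)‖ ≤ 2 * (k * d) := by
      refine (norm_sub_le_norm_sub_add_norm_sub _ (uop U) _).trans ?_
      rw [norm_sub_rev (uop U)]
      have := (hP.near _ _ (uop_mem U)).trans (mul_le_of_le_one_right hP.kd_nonneg (norm_uop_le U))
      linarith
    have he := hP.eps_nonneg
    have := hP.kd_nonneg
    calc ε * ‖nb - θ L (uop U)‖ * ‖uop V‖ * ‖z Ω‖ ≤ ε * (2 * (k * d)) * 1 * ‖z Ω‖ := by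
          gcongr; exact norm_uop_le _
      _ = _ := by ring
  set e2 := err + 2 * (k * d) * ε * ‖z Ω‖ with he2
  have hblocks : ∀ b : B, ((τ b.1).m : ℝ) * ‖(τ b.1).res R Ω z θ a‖ ^ 2 =
      ∑ i, ∑ l, ‖entryRes R Ω z a (X b) (Z b) (Y b) i l‖ ^ 2 := fun b => by
    refine norm_sq_eq _ _ fun i l => ?_
    conv_lhs => rw [Test.res, ← (hZ b).2, ← Flatten.mL_lEnt (uop_mem (τ b.1).U),
      ← Flatten.mL_lEnt (uop_mem (τ b.1).V)]
    exact resid_mL_apply hP.std a (X b) (Z b) (Y b) i l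
  have hsum : ∑ b : B, ((τ b.1).m : ℝ) * ‖(τ b.1).res R Ω z θ a‖ ^ 2 ≤ (L : ℝ) * e2 ^ 2 := by
    simp only [hblocks]
    refine (sum_resid_blk_le e hP.std a X Z Y).trans ?_
    rw [← norm_sq_eq (gaugeD (sqR R L) (sqLin a) (mL (blk e X)) (mL (blk e Y)) -
      delVec (sqR R L) (sqVec L Ω) (sdiag L z) (mL (blk e Z)) (mL (blk e Y))) _
      fun i l => resid_mL_apply hP.std a _ _ _ i l]
    rw [← hU, ← hV, ← hnb]
    exact mul_le_mul_of_nonneg_left (pow_le_pow_left₀ (norm_nonneg _) hbig 2) (Nat.cast_nonneg _)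
  set r : I → ℝ := fun i => ‖(τ i).res R Ω z θ a‖ with hr
  have hwr : ∑ i, (w i : ℝ) * r i ^ 2 ≤ (∑ i, (w i : ℝ)) * e2 ^ 2 := by
    rw [Fintype.sum_sigma] at hsum
    replace hsum : ∑ i, (c i : ℝ) * ((τ i).m * r i ^ 2) ≤ (L : ℝ) * e2 ^ 2 := by
      refine le_trans (le_of_eq (Finset.sum_congr rfl fun i _ => ?_)) hsum
      show _ = ∑ _y : Fin (c i), ((τ i).m : ℝ) * ‖(τ i).res R Ω z θ a‖ ^ 2
      rw [Finset.sum_const, Finset.card_univ, nsmul_eq_mul]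
      exact congrArg (fun t : ℕ => (t : ℝ) * _) (Fintype.card_fin _).symm
    have hcc : ∀ i, (c i : ℝ) * (τ i).m = (w i : ℝ) * (∏ j, (τ j).m : ℕ) := fun i => by
      exact_mod_cast hc i
    have h1 : ∑ i, (c i : ℝ) * ((τ i).m * r i ^ 2) = ((∏ j, (τ j).m : ℕ) : ℝ) * ∑ i, (w i : ℝ) * r i ^ 2 := by
      rw [Finset.mul_sum]
      exact Finset.sum_congr rfl fun i _ => by rw [← mul_assoc, hcc i]; ring
    rw [h1, hLeq, Nat.cast_mul, Nat.cast_sum] at hsum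
    refine le_of_mul_le_mul_left ?_ (Nat.cast_pos.2 hprod : (0 : ℝ) < ((∏ j, (τ j).m : ℕ) : ℝ))
    linarith
  have hW : 0 < ∑ i, (w i : ℝ) := by exact_mod_cast hw
  have he20 : 0 ≤ e2 := by
    have := hP.err_nonneg
    have := hP.eps_nonneg
    have := hP.kd_nonneg
    rw [he2]; positivity
  have hcs : (∑ i, (w i : ℝ) * r i) ^ 2 ≤ (∑ i, (w i : ℝ)) * ∑ i, (w i : ℝ) * r i ^ 2 :=
    Finset.sum_sq_le_sum_mul_sum_of_sq_eq_mul _ (fun i _ => Nat.cast_nonneg _)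
      (fun i _ => by positivity) fun i _ => by ring
  have hfin : ∑ i, (w i : ℝ) * r i ≤ (∑ i, (w i : ℝ)) * e2 := by
    refine le_of_pow_le_pow_left₀ two_ne_zero (by positivity) (hcs.trans ?_)
    calc (∑ i, (w i : ℝ)) * ∑ i, (w i : ℝ) * r i ^ 2
        ≤ (∑ i, (w i : ℝ)) * ((∑ i, (w i : ℝ)) * e2 ^ 2) := mul_le_mul_of_nonneg_left hwr hW.le
      _ = _ := by ring
  calc ∑ i, (w i : ℝ) * (r i - e2) = ∑ i, (w i : ℝ) * r i - (∑ i, (w i : ℝ)) * e2 := by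
        rw [Finset.sum_mul, ← Finset.sum_sub_distrib]
        exact Finset.sum_congr rfl fun i _ => by ring
    _ ≤ 0 := by linarith

end Provider

end Vale.Agent.P096.KK
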