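import Vale.Agent.P096.KK.Gauge.Family
import Vale.Agent.P096.KK.WeakLim

/-!
# P096: one gauge for all tests, and from unitaries to contractions
-/

noncomputable section

namespace Vale.Agent.P096.KK

open scoped InnerProductSpace Topology
open Finset hiding sum_apply
open Filter (atTop)

universe u

variable {H : Type u} [NormedAddCommGroup H] [InnerProductSpace ℂ H] [CompleteSpace H]
variable {M : VonNeumannAlgebra H} {Ω : H} {R : (H →L[ℂ] H) → (H →L[ℂ] H)}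
  {N : Subalgebra ℂ (H →L[ℂ] H)} {d ε : ℝ}
variable {z : H →L[ℂ] H} {𝔊 : Finset (H →L[ℂ] H)}
  {θ : ∀ m : ℕ, (Sq H m →L[ℂ] Sq H m) → (Sq H m →L[ℂ] Sq H m)} {k C err : ℝ}

lemma convexOn_res (τ : Test M) (e : ℝ) :
    ConvexOn ℝ (gaugeSet M R 𝔊 C) (fun a => ‖τ.res R Ω z θ a‖ - e) := by
  refine ⟨convex_gaugeSet 𝔊 C, fun a _ b _ p q hp hq hpq => ?_⟩
  simp only [smul_eq_mul]
  have hlin : τ.res R Ω z θ (p • a + q • b) = p • τ.res R Ω z θ a + q • τ.res R Ω z θ b := by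
    have hsq : ∀ T, sqLin (m := τ.m) (p • a + q • b) T = p • sqLin a T + q • sqLin b T := fun T =>
      sq_ext fun i l => by
        simp only [sqLin_apply, sqGauge_apply, LinearMap.add_apply, LinearMap.smul_apply, smul_add,
          smul_comm ((Real.sqrt τ.m : ℂ)⁻¹) (_ : ℝ), PiLp.add_apply, PiLp.smul_apply]
    have e2 : ∀ v : Sq H τ.m, v = p • v + q • v := fun v => by rw [← add_smul, hpq, one_smul]
    simp only [Test.res, gaugeD, hsq, map_add, ContinuousLinearMap.map_smul_of_tower, smul_sub,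
      smul_add]
    conv_lhs => rw [e2 (delVec (sqR R τ.m) (sqVec τ.m Ω) (sdiag τ.m z) (θ τ.m (uop τ.U)) (uop τ.V))]
    abel
  rw [hlin]
  have := norm_add_le (p • τ.res R Ω z θ a) (q • τ.res R Ω z θ b)
  rw [norm_smul, norm_smul, Real.norm_of_nonneg hp, Real.norm_of_nonneg hq] at this
  have he : e = p * e + q * e := by rw [← add_mul, hpq, one_mul]
  linarith

namespace Provider

variable (hP : Provider M Ω R N z 𝔊 θ k d ε C err)
include hP

lemma exists_bound (τ : Test M) : ∃ Bd, ∀ a ∈ gaugeSet M R 𝔊 C, ‖τ.res R Ω z θ a‖ ≤ Bd := by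
  have hg : ∀ T ∈ sqM M τ.m, ∀ a ∈ gaugeSet M R 𝔊 C, ‖sqLin (m := τ.m) a T‖ ≤
      ‖((Real.sqrt τ.m)⁻¹ : ℂ)‖ * ∑ p : Fin τ.m × Fin τ.m,
        ‖(sinj p : H →L[ℂ] Sq H τ.m)‖ * (C * ‖lEnt T p.1 p.2‖) := by
    intro T hT a ha
    rw [sqLin_apply, sqGauge, norm_smul]
    exact mul_le_mul_of_nonneg_left ((norm_sum_le _ _).trans (Finset.sum_le_sum fun p _ =>
      ((sinj p).le_opNorm _).trans (mul_le_mul_of_nonneg_left (ha.2.2 _ (lEnt_mem hT _ _))
        (norm_nonneg _)))) (norm_nonneg _)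
  let G₀ : (Sq H τ.m →L[ℂ] Sq H τ.m) → ℝ := fun T => ‖((Real.sqrt τ.m)⁻¹ : ℂ)‖ *
    ∑ p : Fin τ.m × Fin τ.m, ‖(sinj p : H →L[ℂ] Sq H τ.m)‖ * (C * ‖lEnt T p.1 p.2‖)
  refine ⟨‖uop τ.U‖ * G₀ (uop τ.V) + G₀ (uop τ.U * uop τ.V) + ‖sqR R τ.m (uop τ.V)‖ * G₀ (uop τ.U)
    + ‖delVec (sqR R τ.m) (sqVec τ.m Ω) (sdiag τ.m z) (θ τ.m (uop τ.U)) (uop τ.V)‖, fun a ha => ?_⟩
  · rw [Test.res, gaugeD]
    refine (norm_sub_le _ _).trans (add_le_add ((norm_add_le _ _).trans (add_le_add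
      ((norm_sub_le _ _).trans (add_le_add (((uop τ.U).le_opNorm _).trans
        (mul_le_mul_of_nonneg_left (hg _ (uop_mem τ.V) a ha) (norm_nonneg _)))
        (hg _ (mul_mem (uop_mem τ.U) (uop_mem τ.V)) a ha)))
      (((sqR R τ.m (uop τ.V)).le_opNorm _).trans
        (mul_le_mul_of_nonneg_left (hg _ (uop_mem τ.U) a ha) (norm_nonneg _))))) le_rfl)

/-- Finitely many tests. -/
lemma finite_tests (S : Finset (Test M)) {s : ℝ} (hs : 0 < s) :
    ∃ a ∈ gaugeSet M R 𝔊 C, ∀ τ ∈ S,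
      ‖τ.res R Ω z θ a‖ ≤ err + 2 * (k * d) * ε * ‖z Ω‖ + s := by
  classical
  let f : Fin S.card → Test M := fun i => (S.equivFin.symm i : Test M)
  choose Bd hBd using fun i => hP.exists_bound (f i)
  set e := err + 2 * (k * d) * ε * ‖z Ω‖ with he
  obtain ⟨a, ha, hle⟩ := exists_forall_le_of_weights (convex_gaugeSet 𝔊 C)
    ⟨0, zero_mem_gaugeSet 𝔊 hP.C_nonneg⟩ (fun i a => ‖(f i).res R Ω z θ a‖ - e)
    (fun i => convexOn_res (f i) e) (Bd := ∑ i, |Bd i| + |e|)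
    (fun i a ha => (abs_sub _ _).trans (add_le_add (le_trans (by rw [abs_norm])
      ((hBd i a ha).trans ((le_abs_self _).trans (Finset.single_le_sum
        (f := fun i => |Bd i|) (fun j _ => abs_nonneg _) (Finset.mem_univ i))))) le_rfl))
    (fun w hw => hP.weighted f w hw) hs
  refine ⟨a, ha, fun τ hτ => ?_⟩
  have := hle (S.equivFin ⟨τ, hτ⟩)
  have e1 : f (S.equivFin ⟨τ, hτ⟩) = τ := by simp [f]
  rw [← e1]
  linarith

/-- One gauge for all tests. -/
lemma all_tests : ∃ a ∈ gaugeSet M R 𝔊 C, ∀ τ : Test M,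
    ‖τ.res R Ω z θ a‖ ≤ err + 2 * (k * d) * ε * ‖z Ω‖ := by
  classical
  set e := err + 2 * (k * d) * ε * ‖z Ω‖ with he
  choose aS haS hleS using fun q : Finset (Test M) × ℕ =>
    hP.finite_tests q.1 (s := 1 / (q.2 + 1 : ℝ)) (by positivity)
  let l : Ultrafilter (Finset (Test M) × ℕ) :=
    Ultrafilter.of (atTop : Filter (Finset (Test M) × ℕ))
  have hl : (l : Filter (Finset (Test M) × ℕ)) ≤ atTop := Ultrafilter.of_le _
  obtain ⟨a, ha⟩ := exists_linear_wLim l aS (Subalgebra.toSubmodule M.toStarSubalgebra.toSubalgebra)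
    (fun x hx => ⟨C * ‖x‖, fun q => (haS q).2.2 x hx⟩)
  have haM : ∀ x ∈ M, WLim l (fun q => aS q x) (a x) := ha
  refine ⟨a, ⟨?_, ?_, ?_⟩, fun τ => ?_⟩
  · refine (haM 1 (one_mem M)).unique ?_
    exact (WLim.const (0 : H)).congr (Filter.Eventually.of_forall fun q => ((haS q).1).symm)
  · intro g hg x hx
    have hgM : g ∈ M := (hP.group.isometry g hg).1
    exact ⟨(haM _ (mul_mem hgM hx)).unique (((haM x hx).map g).congr
        (Filter.Eventually.of_forall fun q => (((haS q).2.1 g hg x hx).1).symm)),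
      (haM _ (mul_mem hx hgM)).unique (((haM x hx).map (R g)).congr
        (Filter.Eventually.of_forall fun q => (((haS q).2.1 g hg x hx).2).symm))⟩
  · exact fun x hx => (haM x hx).norm_le (Filter.Eventually.of_forall fun q => (haS q).2.2 x hx)
  · have hga : ∀ T ∈ sqM M τ.m,
        WLim l (fun q => sqLin (m := τ.m) (aS q) T) (sqLin (m := τ.m) a T) := fun T hT => by
      simp only [sqLin_apply, sqGauge]
      exact (WLim.sum _ fun p _ => (haM _ (lEnt_mem hT p.1 p.2)).map (sinj p)).smul _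
    have hw : WLim l (fun q => τ.res R Ω z θ (aS q)) (τ.res R Ω z θ a) := by
      unfold Test.res gaugeD
      exact ((((hga _ (uop_mem τ.V)).map (uop τ.U)).sub (hga _ (mul_mem (uop_mem τ.U) (uop_mem τ.V)))).add
        ((hga _ (uop_mem τ.U)).map (sqR R τ.m (uop τ.V)))).sub (WLim.const _)
    refine le_of_forall_pos_le_add fun η hη => ?_
    obtain ⟨n, hn⟩ := exists_nat_one_div_lt hη
    refine hw.norm_le ?_
    filter_upwards [hl (Filter.mem_atTop ({τ}, n))] with q hq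
    refine (hleS q τ (hq.1 (Finset.mem_singleton_self τ))).trans ?_
    have : 1 / ((q.2 : ℝ) + 1) ≤ 1 / ((n : ℝ) + 1) := by
      gcongr
      exact_mod_cast hq.2
    linarith

/-- From unitaries to contractions. -/
lemma contractions {a : (H →L[ℂ] H) →ₗ[ℂ] H} {e : ℝ} (he : ∀ τ : Test M, ‖τ.res R Ω z θ a‖ ≤ e)
    (m : ℕ) [NeZero m] {x b n : Sq H m →L[ℂ] Sq H m} (hx : x ∈ sqM M m) (hb : b ∈ sqM M m)
    (hn : n ∈ sqN N m) {c : ℝ} (hnx : ‖n - x‖ ≤ c) (hx1 : ‖x‖ ≤ 1) (hb1 : ‖b‖ ≤ 1) :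
    ‖gaugeD (sqR R m) (sqLin a) x b - delVec (sqR R m) (sqVec m Ω) (sdiag m z) n b‖ ≤
      4 * e + ε * (c + 2 * (k * d)) * ‖z Ω‖ := by
  classical
  have hS := hP.stdSq m
  letI : CStarAlgebra (L2Bound.algC (sqM M m)) := L2Bound.cstarAlgC (sqM M m)
  have hdec : ∀ y ∈ sqM M m, ‖y‖ ≤ 1 → ∃ (u : Fin 4 → uGroup (sqM M m)) (t : Fin 4 → ℂ),
      y = ∑ i, t i • uop (u i) ∧ ∀ i, ‖t i‖ ≤ 1 / 2 := by
    intro y hy hy1
    obtain ⟨u, t, hyt, ht⟩ :=
      CStarAlgebra.exists_sum_four_unitary (⟨y, hy⟩ : L2Bound.algC (sqM M m))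
    refine ⟨fun i => ⟨⟨((u i : L2Bound.algC (sqM M m)) : Sq H m →L[ℂ] Sq H m),
      Unitary.mem_iff.2 ⟨congrArg Subtype.val (Unitary.mem_iff.1 (u i).2).1,
        congrArg Subtype.val (Unitary.mem_iff.1 (u i).2).2⟩⟩, (u i : L2Bound.algC (sqM M m)).2⟩,
      t, ?_, fun i => (ht i).trans (by
        have : ‖(⟨y, hy⟩ : L2Bound.algC (sqM M m))‖ ≤ 1 := hy1
        linarith)⟩
    have h2 := congrArg Subtype.val hyt
    push_cast at h2
    exact h2
  obtain ⟨us, s, hxs, hs⟩ := hdec x hx hx1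
  obtain ⟨vs, t, hbt, ht⟩ := hdec b hb hb1
  have hRsum : ∀ (T : Fin 4 → Sq H m →L[ℂ] Sq H m) (w : Fin 4 → ℂ), (∀ i, T i ∈ sqM M m) →
      sqR R m (∑ i, w i • T i) = ∑ i, w i • sqR R m (T i) := by
    intro T w hT
    have hsm : ∀ i, w i • T i ∈ sqM M m := fun i =>
      (sqM M m).toStarSubalgebra.toSubalgebra.smul_mem (hT i) (w i)
    simp only [Fin.sum_univ_four]
    rw [hS.right_add (add_mem (add_mem (hsm 0) (hsm 1)) (hsm 2)) (hsm 3),
      hS.right_add (add_mem (hsm 0) (hsm 1)) (hsm 2), hS.right_add (hsm 0) (hsm 1),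
      hS.right_smul _ (hT 0), hS.right_smul _ (hT 1), hS.right_smul _ (hT 2), hS.right_smul _ (hT 3)]
  set n' := ∑ i, s i • θ m (uop (us i)) with hn'
  have hdiff : ‖n - n'‖ ≤ c + 2 * (k * d) := by
    rw [show n - n' = (n - x) - (n' - x) by abel]
    refine (norm_sub_le _ _).trans (add_le_add hnx ?_)
    rw [hn', hxs, ← Finset.sum_sub_distrib]
    refine (norm_sum_le _ _).trans ((Finset.sum_le_sum fun i _ => ?_).trans_eq (by
      rw [Finset.sum_const, Finset.card_univ, Fintype.card_fin, nsmul_eq_mul]; push_cast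
      rw [show (2 : ℝ) * (k * d) = 4 * (1 / 2 * (k * d)) by ring]))
    refine le_of_eq_of_le ((congrArg norm (smul_sub (s i) _ _).symm).trans (norm_smul _ _)) ?_
    exact mul_le_mul (hs i) ((hP.near m _ (uop_mem _)).trans
      (mul_le_of_le_one_right hP.kd_nonneg (norm_uop_le _))) (norm_nonneg _) (by norm_num)
  have hn'N : n' ∈ sqN N m :=
    sum_mem fun i _ => (sqN N m).smul_mem (hP.mem m _ (uop_mem _)) _
  have hid : gaugeD (sqR R m) (sqLin a) x b - delVec (sqR R m) (sqVec m Ω) (sdiag m z) n b =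
      (∑ i, ∑ j, (s i * t j) • (Test.mk m inferInstance (us i) (vs j)).res R Ω z θ a) -
        delVec (sqR R m) (sqVec m Ω) (sdiag m z) (n - n') b := by
    have hg : gaugeD (sqR R m) (sqLin a) x b - delVec (sqR R m) (sqVec m Ω) (sdiag m z) n' b =
        ∑ i, ∑ j, (s i * t j) • (Test.mk m inferInstance (us i) (vs j)).res R Ω z θ a := by
      rw [hn', hxs, hbt]
      simp only [Test.res, gaugeD, delVec, hRsum _ _ (fun i => uop_mem _), sum_apply, smul_apply,
        map_sum, map_smul, Finset.sum_mul, Finset.mul_sum, smul_mul_assoc, mul_smul_comm, smul_smul,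
        smul_sub, smul_add, Finset.sum_sub_distrib, Finset.sum_add_distrib, Finset.smul_sum]
      simp only [Fin.sum_univ_four]
      module
    rw [← hg]
    simp only [delVec, sub_apply, map_sub]
    abel
  rw [hid]
  refine (norm_sub_le _ _).trans (add_le_add ?_ ?_)
  · refine (norm_sum_le _ _).trans ((Finset.sum_le_sum fun i _ => (norm_sum_le _ _).trans
      (Finset.sum_le_sum fun j _ => (?_ : _ ≤ (1 / 4 : ℝ) * e))).trans_eq ?_)
    · rw [norm_smul, norm_mul]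
      refine mul_le_mul ?_ (he _) (norm_nonneg _) (by norm_num)
      have := mul_le_mul (hs i) (ht j) (norm_nonneg _) (by norm_num)
      linarith
    · simp only [Finset.sum_const, Finset.card_univ, Fintype.card_fin, nsmul_eq_mul]
      push_cast; ring
  · refine (hP.small m _ (sub_mem hn hn'N) _ hb).trans ?_
    have h0 : 0 ≤ c + 2 * (k * d) := (norm_nonneg _).trans hdiff
    have := hP.eps_nonneg
    calc ε * ‖n - n'‖ * ‖b‖ * ‖z Ω‖ ≤ ε * (c + 2 * (k * d)) * 1 * ‖z Ω‖ := by gcongr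
      _ = _ := by ring

end Provider

end Vale.Agent.P096.KK
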