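import Vale.Agent.P096.KK.Gauge.Basic

/-!
# P096: the key lemma for the cocycle gives a linear gauge

The cone cochain, moved to the trace vector, is the restriction to the unitaries of an exactly
linear map, up to second order errors.
-/

noncomputable section

namespace Vale.Agent.P096.KK

open scoped InnerProductSpace
open Finset Triangle

universe u

variable {H : Type u} [NormedAddCommGroup H] [InnerProductSpace ℂ H] [CompleteSpace H]
variable {M : VonNeumannAlgebra H} {Ω : H} {R : (H →L[ℂ] H) → (H →L[ℂ] H)}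
  {N : Subalgebra ℂ (H →L[ℂ] H)} {P : Set (H →L[ℂ] H)} {d ε : ℝ}
  {z : H →L[ℂ] H} {k : ℝ} {θ θ' : (H →L[ℂ] H) → (H →L[ℂ] H)}

section Walk

variable {G : Type*} [Group G] {E : Type*} [NormedAddCommGroup E] [NormedSpace ℝ E] {ι : Type*}
  [Fintype ι] {n : ℕ} {a : ι → G}

lemma walkAvg_congr {f g : G → E} (h : ∀ x, f x = g x) : walkAvg n a f = walkAvg n a g := by
  rw [funext h]

lemma clm_walkAvg {F : Type*} [NormedAddCommGroup F] [InnerProductSpace ℂ F] (T : F →L[ℂ] F)
    (f : G → F) : T (walkAvg n a f) = walkAvg n a fun x => T (f x) := by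
  simp only [walkAvg, avg, map_sum, ContinuousLinearMap.map_smul_of_tower]

lemma walkAvg_csmul {F : Type*} [NormedAddCommGroup F] [InnerProductSpace ℂ F] (c : ℂ)
    (f : G → F) : c • walkAvg n a f = walkAvg n a fun x => c • f x := by
  simp only [walkAvg, avg, Finset.smul_sum, smul_comm c]

end Walk

/-- The gauge of `Sec 3` as a function which is linear on `M`. -/
def linGauge (Ω : H) (R : (H →L[ℂ] H) → (H →L[ℂ] H)) (θ θ' : (H →L[ℂ] H) → (H →L[ℂ] H))
    (z : H →L[ℂ] H) {ι : Type*} [Fintype ι] (n : ℕ) (a : ι → uGroup M) (κ : H)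
    (x : H →L[ℂ] H) : H :=
  (walkAvg n a fun K' : uGroup M => R (star (uop K')) (frozen Ω z x (θ' (R (uop K'))))) -
    (walkAvg n a fun K : uGroup M => walkAvg n a fun K' : uGroup M =>
      R (star (uop K')) (delVec R Ω z (θ (uop K)) (star (uop K) * x * uop K'))) + R x κ

/-- The residual of a gauge. -/
def resid (R : (H →L[ℂ] H) → (H →L[ℂ] H)) (Ω : H) (θ : (H →L[ℂ] H) → (H →L[ℂ] H))
    (z : H →L[ℂ] H) (a : (H →L[ℂ] H) →ₗ[ℂ] H) (x y : H →L[ℂ] H) : H :=
  x (a y) - a (x * y) + R y (a x) - delVec R Ω z (θ x) y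

namespace Ctx

variable (hX : Ctx M Ω R N P z k d ε θ θ')
include hX

/-- The linear form of the gauge. -/
lemma exists_linear_gauge (n : ℕ) (hn : 0 < n) {ι : Type*} [Fintype ι] [Nonempty ι]
    (a : ι → uGroup M) (κ : H) (hκ : ‖κ‖ ≤ 2 * ε * ‖z Ω‖) :
    ∃ A : (H →L[ℂ] H) →ₗ[ℂ] H,
      (∀ x ∈ M, ‖A x‖ ≤ (6 + 2 * k) * ε * ‖z Ω‖ * ‖x‖) ∧
      ∀ g : uGroup M, ‖R (uop g) (gauge n a (cocV R Ω θ z) g + κ) - A (uop g)‖ ≤
        2 * k ^ 2 * d * ε * ‖z Ω‖ := by
  have hS := hX.close.std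
  have hR := hX.right
  have he := hX.close.ε_nonneg
  have hd := hX.close.d_nonneg
  have hk := hX.k_nonneg
  set f := linGauge Ω R θ θ' z n a κ with hf
  have hadd : ∀ x ∈ M, ∀ y ∈ M, f (x + y) = f x + f y := by
    intro x hx y hy
    have e1 : ∀ K' : uGroup M, frozen Ω z (x + y) (θ' (R (uop K'))) =
        frozen Ω z x (θ' (R (uop K'))) + frozen Ω z y (θ' (R (uop K'))) := fun K' => by
      simp only [frozen, add_apply, map_add]; abel
    have e2 : ∀ K K' : uGroup M,
        delVec R Ω z (θ (uop K)) (star (uop K) * (x + y) * uop K') =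
          delVec R Ω z (θ (uop K)) (star (uop K) * x * uop K') +
            delVec R Ω z (θ (uop K)) (star (uop K) * y * uop K') := fun K K' => by
      simp only [delVec, mul_add, add_mul]
      rw [hS.right_add (mul_mem (mul_mem (star_mem (uop_mem K)) hx) (uop_mem K'))
        (mul_mem (mul_mem (star_mem (uop_mem K)) hy) (uop_mem K'))]
      simp only [add_apply, map_add]; abel
    simp only [hf, linGauge, e1, e2, map_add, walkAvg_add, hS.right_add hx hy, add_apply]
    abel
  have hsmul : ∀ (c : ℂ), ∀ x ∈ M, f (c • x) = c • f x := by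
    intro c x hx
    have e1 : ∀ K' : uGroup M, frozen Ω z (c • x) (θ' (R (uop K'))) =
        c • frozen Ω z x (θ' (R (uop K'))) := fun K' => by
      simp only [frozen, smul_apply, map_smul, smul_sub]
    have e2 : ∀ K K' : uGroup M,
        delVec R Ω z (θ (uop K)) (star (uop K) * (c • x) * uop K') =
          c • delVec R Ω z (θ (uop K)) (star (uop K) * x * uop K') := fun K K' => by
      simp only [delVec, mul_smul_comm, smul_mul_assoc]
      rw [hS.right_smul c (mul_mem (mul_mem (star_mem (uop_mem K)) hx) (uop_mem K'))]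
      simp only [smul_apply, map_smul, smul_sub]
    simp only [hf, linGauge, e1, e2, map_smul, ← walkAvg_csmul, hS.right_smul c hx, smul_apply,
      smul_sub, smul_add]
  let S : Submodule ℂ (H →L[ℂ] H) := Subalgebra.toSubmodule M.toStarSubalgebra.toSubalgebra
  let f₀ : S →ₗ[ℂ] H :=
    { toFun := fun x => f x
      map_add' := fun x y => hadd _ x.2 _ y.2
      map_smul' := fun c x => hsmul c _ x.2 }
  obtain ⟨A, hA⟩ := f₀.exists_extend
  have hAf : ∀ x ∈ M, A x = f x := fun x hx => LinearMap.congr_fun hA ⟨x, hx⟩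
  refine ⟨A, fun x hx => ?_, fun g => ?_⟩
  · rw [hAf x hx, hf, linGauge]
    have t1 : ∀ K' : uGroup M, ‖R (star (uop K')) (frozen Ω z x (θ' (R (uop K'))))‖ ≤
        (2 + 2 * k) * ε * ‖z Ω‖ * ‖x‖ := fun K' => by
      rw [RightAlg.norm_right_star_uop hS hR]
      refine (hX.norm_frozen_le hx (uop_mem K')).trans ?_
      calc (2 + 2 * k) * ε * ‖x‖ * ‖uop K'‖ * ‖z Ω‖ ≤ (2 + 2 * k) * ε * ‖x‖ * 1 * ‖z Ω‖ := by
            gcongr; exact norm_uop_le _
        _ = _ := by ring
    have t2 : ∀ K K' : uGroup M, ‖R (star (uop K'))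
        (delVec R Ω z (θ (uop K)) (star (uop K) * x * uop K'))‖ ≤ 2 * ε * ‖z Ω‖ * ‖x‖ := fun K K' => by
      rw [RightAlg.norm_right_star_uop hS hR]
      refine (hX.norm_delVec_sel_le (uop_mem K)
        (mul_mem (mul_mem (star_mem (uop_mem K)) hx) (uop_mem K'))).trans ?_
      have h1 : ‖star (uop K) * x * uop K'‖ ≤ ‖x‖ :=
        (norm_mul_le _ _).trans ((mul_le_of_le_one_right (norm_nonneg _) (norm_uop_le _)).trans
          ((norm_mul_le _ _).trans (mul_le_of_le_one_left (norm_nonneg _)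
            (by rw [norm_star]; exact norm_uop_le _))))
      calc 2 * ε * ‖uop K‖ * ‖star (uop K) * x * uop K'‖ * ‖z Ω‖
          ≤ 2 * ε * 1 * ‖x‖ * ‖z Ω‖ := by gcongr; exact norm_uop_le _
        _ = _ := by ring
    have t3 : ‖R x κ‖ ≤ ‖x‖ * (2 * ε * ‖z Ω‖) :=
      (hR.norm_apply_le hx _).trans (mul_le_mul_of_nonneg_left hκ (norm_nonneg _))
    refine (norm_add_le _ _).trans ((add_le_add ((norm_sub_le _ _).trans (add_le_add
      (norm_walkAvg_le hn t1) (norm_walkAvg_le hn fun K => norm_walkAvg_le hn (t2 K)))) t3).trans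
      (le_of_eq ?_))
    ring
  · have e1 : ∀ K' : uGroup M, R (uop g) (cocV R Ω θ z g K') =
        R (star (uop K')) (delVec R Ω z (θ (uop g)) (uop K')) := fun K' => by
      rw [cocV_eq, hR.apply_mul (uop_mem g) (star_mem (uop_mem _)), uop_mul, star_mul, mul_assoc,
        star_uop_mul, mul_one]
    have e2 : ∀ K K' : uGroup M, R (uop g) (cocV R Ω θ z K (K⁻¹ * g * K')) =
        R (star (uop K')) (delVec R Ω z (θ (uop K)) (star (uop K) * uop g * uop K')) := fun K K' => by
      rw [cocV_eq, hR.apply_mul (uop_mem g) (star_mem (uop_mem _)),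
        show K * (K⁻¹ * g * K') = g * K' by group, uop_mul g K', star_mul, mul_assoc, star_uop_mul,
        mul_one, uop_mul, uop_mul, uop_inv]
    rw [hAf _ (uop_mem g), hf, linGauge, gauge, map_add, map_sub]
    simp only [clm_walkAvg, e1, e2]
    have key : ∀ p q r s : H, p - q + r - (s - q + r) = p - s := fun p q r s => by abel
    rw [key, ← walkAvg_sub]
    refine norm_walkAvg_le hn fun K' => ?_
    rw [← map_sub, RightAlg.norm_right_star_uop hS hR]
    refine (hX.norm_delVec_sub_frozen_le (uop_mem g) (uop_mem K')).trans ?_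
    calc 2 * k ^ 2 * d * ε * ‖uop g‖ * ‖uop K'‖ * ‖z Ω‖
        ≤ 2 * k ^ 2 * d * ε * 1 * 1 * ‖z Ω‖ := by gcongr <;> exact norm_uop_le _
      _ = _ := by ring

/-- What the key lemma gives for the linear gauge, for one family of steps. -/
lemma linear_key {η B : ℝ} {n D N₁ : ℕ} (hn : 0 < n)
    (hkey : ∀ (π : uGroup M →* (H ≃ₗᵢ[ℝ] H)) (V : uGroup M → uGroup M → H) (C B e : ℝ)
      (ι : Type) [Fintype ι] [Nonempty ι] (a : ι → uGroup M), IsSymm a → 0 ≤ B → 0 ≤ e →
      (∀ g h, ‖V g h‖ ≤ C) → IsApproxCocycle π V e → MultHyp V D N₁ B →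
      ∃ κ : H, ‖κ‖ ≤ C ∧ avg (fun w : ι × ι => ‖π (a w.1) (gauge n a V (a w.2) + κ)
        - (gauge n a V (a w.1 * a w.2) + κ) + (gauge n a V (a w.1) + κ) - V (a w.1) (a w.2)‖)
          ≤ η * (C + B) + N₁ * e)
    (hB : 0 ≤ B) (hM : MultHyp (cocV (M := M) R Ω θ z) D N₁ B)
    {ι : Type} [Fintype ι] [Nonempty ι] (a : ι → uGroup M) (ha : IsSymm a) :
    ∃ A : (H →L[ℂ] H) →ₗ[ℂ] H,
      (∀ x ∈ M, ‖A x‖ ≤ (6 + 2 * k) * ε * ‖z Ω‖ * ‖x‖) ∧
      avg (fun w : ι × ι => ‖resid R Ω θ z A (uop (a w.1)) (uop (a w.2))‖) ≤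
        η * (2 * ε * ‖z Ω‖ + B) + (N₁ * (6 * k + 2 * k ^ 2) + 6 * k ^ 2) * d * ε * ‖z Ω‖ := by
  have hS := hX.close.std
  have hR := hX.right
  have he := hX.close.ε_nonneg
  have hd := hX.close.d_nonneg
  have hk := hX.k_nonneg
  obtain ⟨κ, hκ, hav⟩ := hkey (conjRep hS hR) (cocV R Ω θ z) (2 * ε * ‖z Ω‖) B _ ι a ha hB
    (by positivity) hX.norm_cocV_le hX.isApproxCocycle hM
  obtain ⟨A, hA1, hA2⟩ := hX.exists_linear_gauge n hn a κ hκ
  refine ⟨A, hA1, ?_⟩
  set err := 2 * k ^ 2 * d * ε * ‖z Ω‖ with herr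
  refine (avg_mono (g := fun w => ‖conjRep hS hR (a w.1) (gauge n a (cocV R Ω θ z) (a w.2) + κ)
        - (gauge n a (cocV R Ω θ z) (a w.1 * a w.2) + κ)
        + (gauge n a (cocV R Ω θ z) (a w.1) + κ) - cocV R Ω θ z (a w.1) (a w.2)‖ + 3 * err)
      fun w => ?_).trans ?_
  · set r := a w.1
    set s := a w.2
    set L : uGroup M → H := fun g => R (uop g) (gauge n a (cocV R Ω θ z) g + κ) with hL
    have e0 : R (uop (r * s)) (conjRep hS hR r (gauge n a (cocV R Ω θ z) s + κ)
        - (gauge n a (cocV R Ω θ z) (r * s) + κ)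
        + (gauge n a (cocV R Ω θ z) r + κ) - cocV R Ω θ z r s) =
        uop r (L s) - L (r * s) + R (uop s) (L r) - delVec R Ω z (θ (uop r)) (uop s) := by
      rw [map_sub, map_add, map_sub]
      congr 1
      · congr 1
        · congr 1
          rw [hL, conjRep_apply, ← hS.comm_right (uop_mem r) (uop_mem _),
            hR.apply_mul (uop_mem _) (star_mem (uop_mem r)), uop_mul, ← mul_assoc, star_uop_mul,
            one_mul]
        · rw [hL, hR.apply_mul (uop_mem s) (uop_mem r), ← uop_mul]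
      · rw [cocV_eq, RightAlg.apply_uop hS hR]
    have e1 : resid R Ω θ z A (uop r) (uop s) =
        (uop r (L s) - L (r * s) + R (uop s) (L r) - delVec R Ω z (θ (uop r)) (uop s)) -
          uop r (L s - A (uop s)) + (L (r * s) - A (uop (r * s))) -
          R (uop s) (L r - A (uop r)) := by
      simp only [resid, map_sub, uop_mul]
      abel
    rw [e1]
    have h1 : ‖uop r (L s - A (uop s))‖ ≤ err := by rw [norm_uop_apply]; exact hA2 s
    have h2 : ‖R (uop s) (L r - A (uop r))‖ ≤ err := by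
      rw [RightAlg.norm_right_uop hS hR]; exact hA2 r
    have h3 : ‖L (r * s) - A (uop (r * s))‖ ≤ err := hA2 _
    have h4 := (le_of_eq (RightAlg.norm_right_uop hS hR (r * s)
      (conjRep hS hR r (gauge n a (cocV R Ω θ z) s + κ) - (gauge n a (cocV R Ω θ z) (r * s) + κ)
        + (gauge n a (cocV R Ω θ z) r + κ) - cocV R Ω θ z r s)))
    rw [e0] at h4
    refine (norm_sub_le _ _).trans ?_
    refine (add_le_add ((norm_add_le _ _).trans (add_le_add ((norm_sub_le _ _).trans
      (add_le_add h4 h1)) h3)) h2).trans (le_of_eq ?_)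
    ring
  · rw [avg_add, avg_const]
    refine (add_le_add hav le_rfl).trans (le_of_eq ?_)
    rw [herr]; ring

end Ctx

end Vale.Agent.P096.KK
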