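import Vale.Agent.P096.KK.Gauge.Linear

/-!
# P096: a gauge for one pair of unitaries, bimodular over a finite group

The steps of the walk are seven classes built from the group and the pair.
-/

noncomputable section

namespace Vale.Agent.P096.KK

open scoped InnerProductSpace
open Finset Triangle

universe u

variable {H : Type u} [NormedAddCommGroup H] [InnerProductSpace ℂ H] [CompleteSpace H]
variable {M : VonNeumannAlgebra H} {Ω : H} {R : (H →L[ℂ] H) → (H →L[ℂ] H)}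
  {N : Subalgebra ℂ (H →L[ℂ] H)} {P : Set (H →L[ℂ] H)} {d ε : ℝ}
  {z : H →L[ℂ] H} {k : ℝ} {θ θ' : (H →L[ℂ] H) → (H →L[ℂ] H)}

/-- A finite group of unitaries of `M`, in `N`, with right multiplications in the centraliser. -/
structure GroupData (M : VonNeumannAlgebra H) (R : (H →L[ℂ] H) → (H →L[ℂ] H))
    (N : Subalgebra ℂ (H →L[ℂ] H)) (𝔊 : Finset (H →L[ℂ] H)) : Prop where
  one_mem : (1 : H →L[ℂ] H) ∈ 𝔊
  mul_mem : ∀ g ∈ 𝔊, ∀ h ∈ 𝔊, g * h ∈ 𝔊
  star_mem : ∀ g ∈ 𝔊, star g ∈ 𝔊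
  isometry : ∀ g ∈ 𝔊, g ∈ M ∧ star g * g = 1 ∧ g * star g = 1
  inN : ∀ g ∈ 𝔊, g ∈ N ∧ R g ∈ cent N

lemma avg_equiv {ι κ : Type*} [Fintype ι] [Fintype κ] {E : Type*} [NormedAddCommGroup E]
    [NormedSpace ℝ E] (e : ι ≃ κ) (f : κ → E) : avg (fun i => f (e i)) = avg f := by
  simp only [avg, Fintype.card_congr e, e.sum_comp f]

lemma avg_csmul {ι : Type*} [Fintype ι] (c : ℂ) (f : ι → H) :
    avg (fun i => c • f i) = c • avg f := by
  simp only [avg, Finset.smul_sum, smul_comm c]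

lemma clm_avg {ι : Type*} [Fintype ι] (T : H →L[ℂ] H) (f : ι → H) :
    T (avg f) = avg fun i => T (f i) := by
  simp only [avg, ContinuousLinearMap.map_smul_of_tower, map_sum]

lemma avg_comp_le {ι κ : Type*} [Fintype ι] [Fintype κ] [Nonempty κ] {φ : κ → ι}
    (hφ : Function.Injective φ) {K : ℝ} (hc : (Fintype.card ι : ℝ) ≤ K * Fintype.card κ)
    {f : ι → ℝ} (hf : ∀ i, 0 ≤ f i) : avg (fun p => f (φ p)) ≤ K * avg f := by
  classical
  have h1 : ∑ p, f (φ p) ≤ ∑ i, f i := by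
    rw [← Finset.sum_image (f := f) (hφ.injOn)]
    exact Finset.sum_le_univ_sum_of_nonneg hf
  have hk : (0 : ℝ) < Fintype.card κ := Nat.cast_pos.2 Fintype.card_pos
  have hi : (0 : ℝ) < Fintype.card ι := Nat.cast_pos.2
    (Fintype.card_pos_iff.2 ⟨φ (Classical.arbitrary κ)⟩)
  simp only [avg, smul_eq_mul]
  calc (Fintype.card κ : ℝ)⁻¹ * ∑ p, f (φ p) ≤ (Fintype.card κ : ℝ)⁻¹ * ∑ i, f i := by gcongr
    _ ≤ K * ((Fintype.card ι : ℝ)⁻¹ * ∑ i, f i) := by
        rw [← mul_assoc]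
        refine mul_le_mul_of_nonneg_right ?_ (Finset.sum_nonneg fun i _ => hf i)
        rw [inv_eq_one_div, le_mul_inv_iff₀ hi, div_mul_eq_mul_div, one_mul, div_le_iff₀ hk]
        exact hc

namespace Std

variable (hS : Std M Ω R)
include hS

lemma exists_right_lin (c : H) : ∃ L : (H →L[ℂ] H) →ₗ[ℂ] H, ∀ x ∈ M, L x = R x c := by
  let S : Submodule ℂ (H →L[ℂ] H) := Subalgebra.toSubmodule M.toStarSubalgebra.toSubalgebra
  let f₀ : S →ₗ[ℂ] H :=
    { toFun := fun x => R x c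
      map_add' := fun x y => by
        show R ((x : H →L[ℂ] H) + y) c = _
        rw [hS.right_add x.2 y.2]; rfl
      map_smul' := fun t x => by
        show R (t • (x : H →L[ℂ] H)) c = _
        rw [hS.right_smul t x.2]; rfl }
  obtain ⟨L, hL⟩ := f₀.exists_extend
  exact ⟨L, fun x hx => LinearMap.congr_fun hL ⟨x, hx⟩⟩

end Std

/-- The coboundary of a linear map on the trace space. -/
def gaugeD (R : (H →L[ℂ] H) → (H →L[ℂ] H)) (a : (H →L[ℂ] H) →ₗ[ℂ] H) (x y : H →L[ℂ] H) : H :=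
  x (a y) - a (x * y) + R y (a x)

namespace Ctx

variable (hX : Ctx M Ω R N P z k d ε θ θ')
include hX

/-- The inner gauge has no coboundary. -/
lemma exists_inner (m : H) : ∃ J : (H →L[ℂ] H) →ₗ[ℂ] H, (∀ x ∈ M, J x = R x m - x m) ∧
    ∀ x ∈ M, ∀ y ∈ M, gaugeD R J x y = 0 := by
  obtain ⟨L, hL⟩ := hX.close.std.exists_right_lin m
  refine ⟨L - (ContinuousLinearMap.apply ℂ H m).toLinearMap, fun x hx => by simp [hL x hx],
    fun x hx y hy => ?_⟩
  simp only [gaugeD, LinearMap.sub_apply, hL x hx, hL y hy, hL _ (mul_mem hx hy),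
    ContinuousLinearMap.coe_coe, ContinuousLinearMap.apply_apply, map_sub, mul_apply_eq_comp,
    (hX.right x hx y hy).1, hX.close.std.comm_right hx hy]
  abel

/-- The gauge made invariant under a finite group, for one pair. -/
lemma exists_pair {η B : ℝ} {n D N₁ : ℕ} (hn : 0 < n) (hη : 0 ≤ η)
    (hkey : ∀ (π : uGroup M →* (H ≃ₗᵢ[ℝ] H)) (V : uGroup M → uGroup M → H) (C B e : ℝ)
      (ι : Type) [Fintype ι] [Nonempty ι] (a : ι → uGroup M), IsSymm a → 0 ≤ B → 0 ≤ e →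
      (∀ g h, ‖V g h‖ ≤ C) → IsApproxCocycle π V e → MultHyp V D N₁ B →
      ∃ κ : H, ‖κ‖ ≤ C ∧ avg (fun w : ι × ι => ‖π (a w.1) (gauge n a V (a w.2) + κ)
        - (gauge n a V (a w.1 * a w.2) + κ) + (gauge n a V (a w.1) + κ) - V (a w.1) (a w.2)‖)
          ≤ η * (C + B) + N₁ * e)
    (hB : 0 ≤ B) (hM : MultHyp (cocV (M := M) R Ω θ z) D N₁ B)
    {𝔊 : Finset (H →L[ℂ] H)} (hG : GroupData M R N 𝔊) (U V : uGroup M) :
    ∃ A : (H →L[ℂ] H) →ₗ[ℂ] H, A 1 = 0 ∧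
      (∀ g ∈ 𝔊, ∀ x ∈ M, A (g * x) = g (A x) ∧ A (x * g) = R g (A x)) ∧
      (∀ x ∈ M, ‖A x‖ ≤ 6 * (6 + 2 * k) * ε * ‖z Ω‖ * ‖x‖) ∧
      ‖gaugeD R A (uop U) (uop V) - delVec R Ω z (θ (uop U)) (uop V)‖ ≤
        16 * (196 * (η * (2 * ε * ‖z Ω‖ + B)
          + (N₁ * (6 * k + 2 * k ^ 2) + 6 * k ^ 2) * d * ε * ‖z Ω‖) + k * d * ε * ‖z Ω‖) := by
  classical
  have hS := hX.close.std
  have hR := hX.right
  have he := hX.close.ε_nonneg
  have hd := hX.close.d_nonneg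
  have hk := hX.k_nonneg
  haveI : Nonempty 𝔊 := ⟨⟨1, hG.one_mem⟩⟩
  let gu : 𝔊 → uGroup M := fun g =>
    ⟨⟨(g : H →L[ℂ] H), Unitary.mem_iff.2 ⟨(hG.isometry g g.2).2.1, (hG.isometry g g.2).2.2⟩⟩,
      (hG.isometry g g.2).1⟩
  let cls : Fin 7 → 𝔊 → uGroup M := ![gu, fun _ => U, fun _ => V, fun _ => U * V,
    fun g => gu g * U, fun g => gu g * V, fun g => gu g * (U * V)]
  let e : Fin (Fintype.card 𝔊) ≃ 𝔊 := (Fintype.equivFin 𝔊).symm
  haveI : Nonempty (Fin (Fintype.card 𝔊)) := e.nonempty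
  let a : (Fin 7 × Fin (Fintype.card 𝔊)) × Bool → uGroup M := fun w =>
    if w.2 then cls w.1.1 (e w.1.2) else (cls w.1.1 (e w.1.2))⁻¹
  have ha : IsSymm a := by
    refine ⟨(Equiv.refl _).prodCongr (Equiv.boolNot), fun w => by rcases w with ⟨q, b⟩; cases b <;> rfl, ?_⟩
    rintro ⟨q, b⟩
    cases b <;> simp [a]
  obtain ⟨A₀, hA₀, hav⟩ := hX.linear_key hn hkey hB hM a ha
  set C₁ := (6 + 2 * k) * ε * ‖z Ω‖ with hC₁
  have hC₁0 : 0 ≤ C₁ := by rw [hC₁]; positivity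
  set E₀ := 196 * (η * (2 * ε * ‖z Ω‖ + B)
          + (N₁ * (6 * k + 2 * k ^ 2) + 6 * k ^ 2) * d * ε * ‖z Ω‖) with hE₀
  set ks := k * d * ε * ‖z Ω‖ with hks
  have hks0 : 0 ≤ ks := by rw [hks]; positivity
  have hE₀0 : 0 ≤ E₀ := by rw [hE₀]; positivity
  set E₁ := E₀ + ks with hE₁
  -- every pair of classes is good on average
  have hcls : ∀ i j, avg (fun r : 𝔊 => avg fun t : 𝔊 =>
      ‖resid R Ω θ z A₀ (uop (cls i r)) (uop (cls j t))‖) ≤ E₀ := by
    intro i j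
    rw [← avg_equiv e]
    simp only [← avg_equiv e (fun t : 𝔊 => ‖resid R Ω θ z A₀ (uop (cls i _)) (uop (cls j t))‖)]
    rw [← avg_prod (fun w : Fin (Fintype.card 𝔊) × Fin (Fintype.card 𝔊) =>
      ‖resid R Ω θ z A₀ (uop (cls i (e w.1))) (uop (cls j (e w.2)))‖)]
    have := avg_comp_le (φ := fun w : Fin (Fintype.card 𝔊) × Fin (Fintype.card 𝔊) =>
        (((i, w.1), true), ((j, w.2), true))) (K := 196)
      (fun w w' h => by simp only [Prod.mk.injEq] at h; exact Prod.ext h.1.1.2 h.2.1.2)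
      (by simp only [Fintype.card_prod, Fintype.card_fin, Fintype.card_bool, Nat.cast_mul]
          apply le_of_eq; push_cast; ring)
      (f := fun w => ‖resid R Ω θ z A₀ (uop (a w.1)) (uop (a w.2))‖) fun _ => norm_nonneg _
    refine le_trans (le_of_eq ?_) (this.trans ?_)
    · simp only [a, if_true]
    · rw [hE₀]; exact mul_le_mul_of_nonneg_left hav (by norm_num)
  -- remove the inner part seen by the group
  set m₀ : H := avg fun t : 𝔊 => R (star (t : H →L[ℂ] H)) (A₀ t) with hm₀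
  obtain ⟨J, hJ, hJd⟩ := hX.exists_inner m₀
  set A₂ := A₀ - J with hA₂
  have hgM : ∀ g : 𝔊, (g : H →L[ℂ] H) ∈ M := fun g => (hG.isometry g g.2).1
  have hgs : ∀ g : 𝔊, star (g : H →L[ℂ] H) ∈ M := fun g => star_mem (hgM g)
  have hinner : ∀ x ∈ M, ∀ y ∈ M, gaugeD R A₂ x y = gaugeD R A₀ x y := by
    intro x hx y hy
    rw [← sub_zero (gaugeD R A₀ x y), ← hJd x hx y hy, hA₂]
    simp only [gaugeD, LinearMap.sub_apply, map_sub]
    abel
  have hres0 : ∀ x ∈ M, ∀ t : 𝔊, resid R Ω θ z A₀ x t = gaugeD R A₀ x t := fun x hx t => by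
    rw [resid, delVec_eq_zero_of_cent (hX.sel.mem x hx) (hG.inN t t.2).2, sub_zero]; rfl
  have hnorm1 : ∀ g : 𝔊, ‖(g : H →L[ℂ] H)‖ ≤ 1 := fun g => norm_uop_le (gu g)
  have hnapp : ∀ (g : 𝔊) (v : H), ‖(g : H →L[ℂ] H) v‖ = ‖v‖ := fun g v => norm_uop_apply (gu g) v
  have hnR : ∀ (g : 𝔊) (v : H), ‖R (g : H →L[ℂ] H) v‖ = ‖v‖ := fun g v =>
    RightAlg.norm_right_uop hS hR (gu g) v
  have hnRs : ∀ (g : 𝔊) (v : H), ‖R (star (g : H →L[ℂ] H)) v‖ = ‖v‖ := fun g v =>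
    RightAlg.norm_right_star_uop hS hR (gu g) v
  have hnsapp : ∀ (g : 𝔊) (v : H), ‖star (g : H →L[ℂ] H) v‖ = ‖v‖ := fun g v => by
    simpa [uop_inv] using norm_uop_apply (gu g)⁻¹ v
  -- translations of the group
  let mulEquiv : 𝔊 → 𝔊 ≃ 𝔊 := fun g =>
    { toFun := fun t => ⟨g * t, hG.mul_mem g g.2 t t.2⟩
      invFun := fun t => ⟨star (g : H →L[ℂ] H) * t, hG.mul_mem _ (hG.star_mem g g.2) t t.2⟩
      left_inv := fun t => Subtype.ext (by
        show star (g : H →L[ℂ] H) * ((g : H →L[ℂ] H) * t) = t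
        rw [← mul_assoc, (hG.isometry g g.2).2.1, one_mul])
      right_inv := fun t => Subtype.ext (by
        show (g : H →L[ℂ] H) * (star (g : H →L[ℂ] H) * t) = t
        rw [← mul_assoc, (hG.isometry g g.2).2.2, one_mul]) }
  let mulEquiv' : 𝔊 → 𝔊 ≃ 𝔊 := fun g =>
    { toFun := fun t => ⟨t * g, hG.mul_mem t t.2 g g.2⟩
      invFun := fun t => ⟨t * star (g : H →L[ℂ] H), hG.mul_mem t t.2 _ (hG.star_mem g g.2)⟩
      left_inv := fun t => Subtype.ext (by
        show (t : H →L[ℂ] H) * g * star (g : H →L[ℂ] H) = t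
        rw [mul_assoc, (hG.isometry g g.2).2.2, mul_one])
      right_inv := fun t => Subtype.ext (by
        show (t : H →L[ℂ] H) * star (g : H →L[ℂ] H) * g = t
        rw [mul_assoc, (hG.isometry g g.2).2.1, mul_one]) }
  have hA₂g : avg (fun r : 𝔊 => ‖A₂ r‖) ≤ E₀ := by
    refine (avg_mono (g := fun r : 𝔊 => avg fun t : 𝔊 =>
      ‖resid R Ω θ z A₀ (uop (cls 0 r)) (uop (cls 0 t))‖) fun r => ?_).trans (hcls 0 0)
    have e1 : A₂ r = avg fun t : 𝔊 => R (star (t : H →L[ℂ] H)) (gaugeD R A₀ r t) := by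
      have e2 : ∀ t : 𝔊, R (star (t : H →L[ℂ] H)) (gaugeD R A₀ r t) =
          (r : H →L[ℂ] H) (R (star (t : H →L[ℂ] H)) (A₀ t)) -
            R (r : H →L[ℂ] H) (R (star ((mulEquiv r t : 𝔊) : H →L[ℂ] H)) (A₀ (mulEquiv r t))) +
            A₀ r := by
        intro t
        have hrt : ((mulEquiv r t : 𝔊) : H →L[ℂ] H) = r * t := rfl
        rw [hrt, gaugeD, map_add, map_sub, hS.comm_right (hgM r) (hgs t), star_mul,
          hR.apply_mul (hgM r) (mul_mem (hgs t) (hgs r)), mul_assoc, (hG.isometry r r.2).2.1,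
          mul_one, hR.apply_mul (hgs t) (hgM t), (hG.isometry t t.2).2.2, hS.right_one,
          one_apply_eq_self]
      simp only [e2]
      rw [avg_add, avg_sub, avg_const, ← clm_avg, ← clm_avg,
        avg_equiv (mulEquiv r) (fun s : 𝔊 => R (star (s : H →L[ℂ] H)) (A₀ s)), hA₂,
        LinearMap.sub_apply, hJ _ (hgM r), ← hm₀]
      abel
    rw [e1]
    refine (norm_avg_le_avg _).trans (avg_mono fun t => le_of_eq ?_)
    rw [hnRs]
    show _ = ‖resid R Ω θ z A₀ (r : H →L[ℂ] H) (t : H →L[ℂ] H)‖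
    rw [hres0 _ (hgM r) t]
  -- left translations
  have hleft : ∀ (i : Fin 7) (X : uGroup M), (∀ r, cls i r = X) →
      avg (fun r : 𝔊 => ‖A₂ ((r : H →L[ℂ] H) * uop X) - (r : H →L[ℂ] H) (A₂ (uop X))‖) ≤
        E₁ + E₀ := by
    intro i X hi
    refine (avg_mono (g := fun r : 𝔊 => ((avg fun t : 𝔊 =>
      ‖resid R Ω θ z A₀ (uop (cls 0 r)) (uop (cls i t))‖) + ks) + ‖A₂ r‖) fun r => ?_).trans ?_
    · simp only [hi, avg_const]
      have h0 : gu r = cls 0 r := rfl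
      have hd0 : ‖delVec R Ω z (θ r) (uop X)‖ ≤ ks := by
        refine (hX.norm_delVec_sel_of_mem (hgM r) (hG.inN r r.2).1 (uop_mem X)).trans ?_
        rw [hks]
        calc k * d * ε * ‖(r : H →L[ℂ] H)‖ * ‖uop X‖ * ‖z Ω‖ ≤ k * d * ε * 1 * 1 * ‖z Ω‖ := by
              gcongr
              · exact hnorm1 r
              · exact norm_uop_le _
          _ = _ := by ring
      have e1 : A₂ ((r : H →L[ℂ] H) * uop X) - (r : H →L[ℂ] H) (A₂ (uop X)) =
          R (uop X) (A₂ r) - (resid R Ω θ z A₀ r (uop X) + delVec R Ω z (θ r) (uop X)) := by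
        rw [resid, sub_add_cancel, ← gaugeD, ← hinner _ (hgM r) _ (uop_mem X), gaugeD]
        abel
      rw [e1]
      refine (norm_sub_le _ _).trans ?_
      rw [RightAlg.norm_right_uop hS hR]
      have := norm_add_le (resid R Ω θ z A₀ r (uop X)) (delVec R Ω z (θ r) (uop X))
      show _ ≤ ‖resid R Ω θ z A₀ (r : H →L[ℂ] H) (uop X)‖ + ks + ‖A₂ r‖
      linarith
    · rw [avg_add, avg_add, avg_const, hE₁]
      linarith [hcls 0 i, hA₂g]
  -- two-sided translations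
  have htwo : ∀ (i j : Fin 7) (X : uGroup M), (∀ r, cls i r = X) → (∀ r, cls j r = gu r * X) →
      avg (fun r : 𝔊 => avg fun t : 𝔊 => ‖R (star (t : H →L[ℂ] H)) (star (r : H →L[ℂ] H)
        (A₂ ((r : H →L[ℂ] H) * uop X * t))) - A₂ (uop X)‖) ≤ E₁ + E₀ + 2 * E₀ := by
    intro i j X hi hj
    refine (avg_mono (g := fun r : 𝔊 => ‖A₂ ((r : H →L[ℂ] H) * uop X) - (r : H →L[ℂ] H) (A₂ (uop X))‖ +
      ((avg fun t : 𝔊 => ‖resid R Ω θ z A₀ (uop (cls j r)) (uop (cls 0 t))‖) +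
        avg fun t : 𝔊 => ‖A₂ t‖)) fun r => ?_).trans ?_
    · rw [← avg_add, ← avg_const (ι := 𝔊)
        ‖A₂ ((r : H →L[ℂ] H) * uop X) - (r : H →L[ℂ] H) (A₂ (uop X))‖, ← avg_add]
      refine avg_mono fun t => ?_
      have hrX : (r : H →L[ℂ] H) * uop X ∈ M := mul_mem (hgM r) (uop_mem X)
      have e0 : ‖R (star (t : H →L[ℂ] H)) (star (r : H →L[ℂ] H)
            (A₂ ((r : H →L[ℂ] H) * uop X * t))) - A₂ (uop X)‖ =
          ‖A₂ ((r : H →L[ℂ] H) * uop X * t) - R (t : H →L[ℂ] H) ((r : H →L[ℂ] H) (A₂ (uop X)))‖ := by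
        have e1 : A₂ (uop X) = R (star (t : H →L[ℂ] H)) (star (r : H →L[ℂ] H)
            (R (t : H →L[ℂ] H) ((r : H →L[ℂ] H) (A₂ (uop X))))) := by
          rw [hS.comm_right (hgs r) (hgM t), hR.apply_mul (hgs t) (hgM t), (hG.isometry t t.2).2.2,
            hS.right_one, one_apply_eq_self, ← mul_apply_eq_comp, (hG.isometry r r.2).2.1,
            one_apply_eq_self]
        conv_lhs => rw [e1, ← map_sub, ← map_sub, hnRs, hnsapp]
      have e2 : A₂ ((r : H →L[ℂ] H) * uop X * t) - R (t : H →L[ℂ] H) ((r : H →L[ℂ] H) (A₂ (uop X))) =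
          R (t : H →L[ℂ] H) (A₂ ((r : H →L[ℂ] H) * uop X) - (r : H →L[ℂ] H) (A₂ (uop X))) +
          (((r : H →L[ℂ] H) * uop X) (A₂ t) - resid R Ω θ z A₀ ((r : H →L[ℂ] H) * uop X) t) := by
        rw [hres0 _ hrX t, ← hinner _ hrX _ (hgM t), gaugeD, map_sub]
        abel
      rw [e0, e2]
      refine (norm_add_le _ _).trans (add_le_add (le_of_eq (hnR t _))
        ((norm_sub_le _ _).trans (le_of_eq ?_)))
      rw [mul_apply_eq_comp, hnapp, norm_uop_apply, add_comm, hj]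
      rfl
    · rw [avg_add, avg_add, avg_const]
      linarith [hleft i X hi, hcls j 0, hA₂g]
  -- the invariant gauge
  let f : (H →L[ℂ] H) → H := fun x => avg fun r : 𝔊 => avg fun t : 𝔊 =>
    R (star (t : H →L[ℂ] H)) (star (r : H →L[ℂ] H) (A₂ ((r : H →L[ℂ] H) * x * t)))
  let A₃ : (H →L[ℂ] H) →ₗ[ℂ] H :=
    { toFun := f
      map_add' := fun x y => by simp only [f, mul_add, add_mul, map_add, avg_add]
      map_smul' := fun c x => by
        simp only [f, mul_smul_comm, smul_mul_assoc, map_smul, avg_csmul, RingHom.id_apply] }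
  have hA₃ : ∀ x, A₃ x = avg fun r : 𝔊 => avg fun t : 𝔊 =>
      R (star (t : H →L[ℂ] H)) (star (r : H →L[ℂ] H) (A₂ ((r : H →L[ℂ] H) * x * t))) := fun _ => rfl
  have hA₃X : ∀ (i j : Fin 7) (X : uGroup M), (∀ r, cls i r = X) → (∀ r, cls j r = gu r * X) →
      ‖A₃ (uop X) - A₂ (uop X)‖ ≤ E₁ + E₀ + 2 * E₀ := by
    intro i j X hi hj
    rw [hA₃, ← avg_const (ι := 𝔊) (A₂ (uop X)), ← avg_sub]
    refine (norm_avg_le_avg _).trans ((avg_mono fun r => ?_).trans (htwo i j X hi hj))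
    rw [← avg_const (ι := 𝔊) (A₂ (uop X)), ← avg_sub]
    refine (norm_avg_le_avg _).trans (le_of_eq ?_)
    simp only [avg_const]
  have hA₃1 : ‖A₃ 1‖ ≤ 3 * E₀ := by
    rw [hA₃]
    refine (norm_avg_le_avg _).trans ((avg_mono (g := fun r : 𝔊 =>
      ((avg fun t : 𝔊 => ‖resid R Ω θ z A₀ (uop (cls 0 r)) (uop (cls 0 t))‖) + ‖A₂ r‖) +
        avg fun t : 𝔊 => ‖A₂ t‖) fun r => ?_).trans ?_)
    · rw [← avg_const (ι := 𝔊) ‖A₂ r‖, ← avg_add, ← avg_add]
      refine (norm_avg_le_avg _).trans (avg_mono fun t => ?_)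
      rw [hnRs, hnsapp, mul_one]
      have e1 : A₂ ((r : H →L[ℂ] H) * t) = (r : H →L[ℂ] H) (A₂ t) + R (t : H →L[ℂ] H) (A₂ r) -
          resid R Ω θ z A₀ r t := by
        rw [hres0 _ (hgM r) t, ← hinner _ (hgM r) _ (hgM t), gaugeD]
        abel
      rw [e1]
      refine (norm_sub_le _ _).trans ((add_le_add ((norm_add_le _ _).trans
        (add_le_add (le_of_eq (hnapp r _)) (le_of_eq (hnR t _)))) le_rfl).trans (le_of_eq ?_))
      show _ = ‖resid R Ω θ z A₀ (r : H →L[ℂ] H) (t : H →L[ℂ] H)‖ + _ + _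
      ring
    · rw [avg_add, avg_add, avg_const]
      linarith [hcls 0 0, hA₂g]
  have hbim : ∀ g : 𝔊, ∀ x ∈ M, A₃ ((g : H →L[ℂ] H) * x) = (g : H →L[ℂ] H) (A₃ x) ∧
      A₃ (x * g) = R (g : H →L[ℂ] H) (A₃ x) := by
    intro g x _
    refine ⟨?_, ?_⟩
    · rw [hA₃, hA₃, clm_avg]
      simp only [clm_avg]
      rw [← avg_equiv (mulEquiv' g)
        (fun r : 𝔊 => avg fun t : 𝔊 => (g : H →L[ℂ] H) (R (star (t : H →L[ℂ] H))
          (star (r : H →L[ℂ] H) (A₂ ((r : H →L[ℂ] H) * x * t)))))]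
      refine congrArg avg (funext fun r => congrArg avg (funext fun t => ?_))
      show _ = (g : H →L[ℂ] H) (R (star (t : H →L[ℂ] H))
          (star ((r : H →L[ℂ] H) * g) (A₂ ((r : H →L[ℂ] H) * g * x * t))))
      have hh : ∀ v, (g : H →L[ℂ] H) (star ((r : H →L[ℂ] H) * g) v) = star (r : H →L[ℂ] H) v :=
        fun v => by
          rw [← mul_apply_eq_comp, star_mul, ← mul_assoc, (hG.isometry g g.2).2.2, one_mul]
      rw [hS.comm_right (hgM g) (hgs t), hh]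
      simp only [mul_assoc]
    · rw [hA₃, hA₃, clm_avg]
      simp only [clm_avg]
      refine congrArg avg (funext fun r => ?_)
      rw [← avg_equiv (mulEquiv g) (fun t : 𝔊 => R (g : H →L[ℂ] H) (R (star (t : H →L[ℂ] H))
          (star (r : H →L[ℂ] H) (A₂ ((r : H →L[ℂ] H) * x * t)))))]
      refine congrArg avg (funext fun t => ?_)
      show _ = R (g : H →L[ℂ] H) (R (star ((g : H →L[ℂ] H) * t))
          (star (r : H →L[ℂ] H) (A₂ ((r : H →L[ℂ] H) * x * ((g : H →L[ℂ] H) * t)))))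
      have hh : star ((g : H →L[ℂ] H) * t) * g = star (t : H →L[ℂ] H) := by
        rw [star_mul, mul_assoc, (hG.isometry g g.2).2.1, mul_one]
      rw [hR.apply_mul (hgM g) (star_mem (mul_mem (hgM g) (hgM t))), hh]
      simp only [mul_assoc]
  have hA₂b : ∀ x ∈ M, ‖A₂ x‖ ≤ 3 * C₁ * ‖x‖ := by
    intro x hx
    have hm : ‖m₀‖ ≤ C₁ := by
      refine (norm_avg_le_avg _).trans ((avg_mono fun t : 𝔊 => ?_).trans (avg_const C₁).le)
      rw [hnRs]
      exact (hA₀ _ (hgM t)).trans (mul_le_of_le_one_right hC₁0 (hnorm1 t))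
    rw [hA₂, LinearMap.sub_apply, hJ x hx]
    refine (norm_sub_le _ _).trans ((add_le_add (hA₀ x hx) ((norm_sub_le _ _).trans (add_le_add
      ((hR.norm_apply_le hx _).trans (mul_le_mul_of_nonneg_left hm (norm_nonneg _)))
      ((x.le_opNorm _).trans (mul_le_mul_of_nonneg_left hm (norm_nonneg _)))))).trans (le_of_eq ?_))
    rw [hC₁]; ring
  have hA₃b : ∀ x ∈ M, ‖A₃ x‖ ≤ 3 * C₁ * ‖x‖ := by
    intro x hx
    rw [hA₃]
    refine (norm_avg_le_avg _).trans ((avg_mono fun r => ?_).trans (avg_const _).le)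
    refine (norm_avg_le_avg _).trans ((avg_mono fun t => ?_).trans (avg_const _).le)
    rw [hnRs, hnsapp]
    refine (hA₂b _ (mul_mem (mul_mem (hgM r) hx) (hgM t))).trans ?_
    gcongr
    exact (norm_mul_le _ _).trans ((mul_le_of_le_one_right (norm_nonneg _) (hnorm1 t)).trans
      ((norm_mul_le _ _).trans (mul_le_of_le_one_left (norm_nonneg _) (hnorm1 r))))
  obtain ⟨L, hL⟩ := hS.exists_right_lin (A₃ 1)
  have hA₃comm : ∀ g : 𝔊, R (g : H →L[ℂ] H) (A₃ 1) = (g : H →L[ℂ] H) (A₃ 1) := fun g => by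
    rw [← (hbim g 1 (one_mem M)).2, ← (hbim g 1 (one_mem M)).1, one_mul, mul_one]
  refine ⟨A₃ - L, ?_, ?_, ?_, ?_⟩
  · rw [LinearMap.sub_apply, hL 1 (one_mem M), hS.right_one, one_apply_eq_self, sub_self]
  · intro g hg x hx
    have hgM' : g ∈ M := (hG.isometry g hg).1
    obtain ⟨b1, b2⟩ := hbim ⟨g, hg⟩ x hx
    refine ⟨?_, ?_⟩
    · rw [LinearMap.sub_apply, LinearMap.sub_apply, hL _ (mul_mem hgM' hx), hL x hx, map_sub, b1,
        (hR g hgM' x hx).1, mul_apply_eq_comp, hA₃comm ⟨g, hg⟩, ← hS.comm_right hgM' hx]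
    · rw [LinearMap.sub_apply, LinearMap.sub_apply, hL _ (mul_mem hx hgM'), hL x hx, map_sub, b2,
        (hR x hx g hgM').1, mul_apply_eq_comp]
  · intro x hx
    rw [LinearMap.sub_apply, hL x hx]
    refine (norm_sub_le _ _).trans ((add_le_add (hA₃b x hx) ((hR.norm_apply_le hx _).trans
      (mul_le_mul_of_nonneg_left ((hA₃b 1 (one_mem M)).trans (mul_le_of_le_one_right
        (by positivity) ContinuousLinearMap.norm_id_le)) (norm_nonneg _)))).trans (le_of_eq ?_))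
    rw [hC₁]; ring
  · have hUV := hA₃X 3 6 (U * V) (fun _ => rfl) fun _ => rfl
    have hU' := hA₃X 1 4 U (fun _ => rfl) fun _ => rfl
    have hV' := hA₃X 2 5 V (fun _ => rfl) fun _ => rfl
    have hres : ‖resid R Ω θ z A₀ (uop U) (uop V)‖ ≤ E₀ := by
      refine le_trans (le_of_eq ?_) (hcls 1 2)
      show _ = avg fun r : 𝔊 => avg fun t : 𝔊 => ‖resid R Ω θ z A₀ (uop U) (uop V)‖
      simp only [avg_const]
    have hUm := uop_mem U
    have hVm := uop_mem V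
    have e1 : gaugeD R (A₃ - L) (uop U) (uop V) - delVec R Ω z (θ (uop U)) (uop V) =
        resid R Ω θ z A₀ (uop U) (uop V) + uop U (A₃ (uop V) - A₂ (uop V)) -
          (A₃ (uop (U * V)) - A₂ (uop (U * V))) + R (uop V) (A₃ (uop U) - A₂ (uop U)) -
          uop U (R (uop V) (A₃ 1)) := by
      rw [show resid R Ω θ z A₀ (uop U) (uop V) =
        gaugeD R A₂ (uop U) (uop V) - delVec R Ω z (θ (uop U)) (uop V) by
          rw [hinner _ hUm _ hVm]; rfl]
      simp only [gaugeD, LinearMap.sub_apply, hL _ hUm, hL _ hVm, hL _ (mul_mem hUm hVm), map_sub,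
        uop_mul, (hR _ hUm _ hVm).1, mul_apply_eq_comp]
      abel
    rw [e1]
    refine (norm_sub_le _ _).trans ?_
    refine (add_le_add ((norm_add_le _ _).trans (add_le_add ((norm_sub_le _ _).trans (add_le_add
      ((norm_add_le _ _).trans (add_le_add hres ((norm_uop_apply _ _).le.trans hV'))) hUV))
      ((RightAlg.norm_right_uop hS hR _ _).le.trans hU')))
      ((norm_uop_apply _ _).le.trans ((RightAlg.norm_right_uop hS hR _ _).le.trans hA₃1))).trans ?_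
    rw [hE₁]
    linarith

end Ctx

end Vale.Agent.P096.KK
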