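import Vale.Agent.P096.KK.Gauge.Pair
import Vale.Agent.P096.KK.AmpAmp
import Vale.Agent.P096.KK.FlattenDense

/-!
# P096: matrices, monomial groups and block diagonal matrices for the gauge
-/

noncomputable section

namespace Vale.Agent.P096.KK

open scoped InnerProductSpace
open Finset hiding sum_apply

universe u

variable {H : Type u} [NormedAddCommGroup H] [InnerProductSpace ℂ H] [CompleteSpace H]
variable {M : VonNeumannAlgebra H} {Ω : H} {R : (H →L[ℂ] H) → (H →L[ℂ] H)}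
  {N : Subalgebra ℂ (H →L[ℂ] H)} {P : Set (H →L[ℂ] H)} {d ε : ℝ} {m : ℕ}

/-- The matrix with one entry. -/
def sgl (p q : Fin m) (x : H →L[ℂ] H) : Fin m → Fin m → H →L[ℂ] H :=
  fun a b => if a = p ∧ b = q then x else 0

/-- A monomial matrix. -/
def mono (σ : Equiv.Perm (Fin m)) (g : Fin m → H →L[ℂ] H) : Fin m → Fin m → H →L[ℂ] H :=
  fun p q => if σ p = q then g p else 0

lemma mL_add (X Y : Fin m → Fin m → H →L[ℂ] H) : mL (X + Y) = mL X + mL Y :=
  sq_op_ext fun v i k => by simp [Finset.sum_add_distrib]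

lemma mL_smul (c : ℂ) (X : Fin m → Fin m → H →L[ℂ] H) : mL (c • X) = c • mL X :=
  sq_op_ext fun v i k => by simp [Finset.smul_sum]

lemma mL_sum {ι : Type*} (s : Finset ι) (X : ι → Fin m → Fin m → H →L[ℂ] H) :
    mL (∑ b ∈ s, X b) = ∑ b ∈ s, mL (X b) :=
  sq_op_ext fun v i k => by
    simp only [mL_apply, sum_apply, sq_sum_apply, Finset.sum_apply]
    rw [Finset.sum_comm]

lemma mL_diag (x : H →L[ℂ] H) : mL (fun p q : Fin m => if p = q then x else 0) = sdiag m x :=
  sq_op_ext fun v i k => by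
    rw [mL_apply, sdiag_apply, Finset.sum_eq_single i (fun j _ hj => by simp [Ne.symm hj])
      (fun h => absurd (Finset.mem_univ _) h), if_pos rfl]

lemma mL_one : mL (fun p q : Fin m => if p = q then (1 : H →L[ℂ] H) else 0) = 1 := by
  rw [mL_diag, sdiag_one]

lemma star_mL (X : Fin m → Fin m → H →L[ℂ] H) :
    star (mL X) = mL (fun p q => star (X q p)) := by
  rw [ContinuousLinearMap.star_eq_adjoint]
  symm
  rw [ContinuousLinearMap.eq_adjoint_iff]
  intro v w
  simp only [PiLp.inner_apply, Fintype.sum_prod_type, mL_apply, sum_inner, inner_sum,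
    ContinuousLinearMap.star_eq_adjoint, ContinuousLinearMap.adjoint_inner_left]
  calc ∑ i, ∑ k, ∑ j, ⟪v (j, k), X j i (w (i, k))⟫_ℂ
      = ∑ k, ∑ i, ∑ j, ⟪v (j, k), X j i (w (i, k))⟫_ℂ := Finset.sum_comm
    _ = ∑ k, ∑ j, ∑ i, ⟪v (j, k), X j i (w (i, k))⟫_ℂ :=
        Finset.sum_congr rfl fun k _ => Finset.sum_comm
    _ = _ := Finset.sum_comm

lemma mono_mul (σ τ : Equiv.Perm (Fin m)) (g h : Fin m → H →L[ℂ] H) :
    mMul (mono σ g) (mono τ h) = mono (σ.trans τ) (fun p => g p * h (σ p)) := by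
  funext p q
  simp only [mMul, mono, Equiv.trans_apply]
  rw [Finset.sum_eq_single (σ p) (fun l _ hl => by simp [Ne.symm hl])
    (fun h => absurd (Finset.mem_univ _) h)]
  by_cases hq : τ (σ p) = q <;> simp [hq]

lemma star_mL_mono (σ : Equiv.Perm (Fin m)) (g : Fin m → H →L[ℂ] H) :
    star (mL (mono σ g)) = mL (mono σ.symm fun p => star (g (σ.symm p))) := by
  rw [star_mL]
  congr 1
  funext p q
  by_cases h : σ q = p
  · subst h; simp [mono]
  · have h' : σ.symm p ≠ q := fun e => h (by rw [← e, Equiv.apply_symm_apply])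
    simp [mono, h, h']

lemma mMul_sgl_left (p : Fin m) (X : Fin m → Fin m → H →L[ℂ] H) (a b : Fin m) :
    mMul (sgl p p 1) X a b = if a = p then X p b else 0 := by
  rw [mMul, Finset.sum_eq_single p (fun j _ hj => by simp [sgl, hj])
    (fun h => absurd (Finset.mem_univ _) h)]
  by_cases ha : a = p <;> simp [sgl, ha]

lemma mMul_sgl_right (q : Fin m) (X : Fin m → Fin m → H →L[ℂ] H) (a b : Fin m) :
    mMul X (sgl q q 1) a b = if b = q then X a q else 0 := by
  rw [mMul, Finset.sum_eq_single q (fun j _ hj => by simp [sgl, hj])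
    (fun h => absurd (Finset.mem_univ _) h)]
  by_cases hb : b = q <;> simp [sgl, hb]

lemma sgl_sandwich (p q : Fin m) (x : H →L[ℂ] H) :
    mMul (mMul (sgl p p 1) (sgl p q x)) (sgl q q 1) = sgl p q x := by
  funext a b
  rw [mMul_sgl_right, mMul_sgl_left]
  by_cases hb : b = q <;> by_cases ha : a = p <;> simp [sgl, ha, hb]

lemma mono_sgl (σ τ : Equiv.Perm (Fin m)) (r s p q : Fin m) (x : H →L[ℂ] H) (hp : σ p = r)
    (hq : τ s = q) :
    mMul (mMul (mono σ fun _ => 1) (sgl r s x)) (mono τ fun _ => 1) = sgl p q x := by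
  funext a b
  have h1 : ∀ c, mMul (mono σ fun _ => 1) (sgl r s x) a c = sgl r s x (σ a) c := fun c => by
    rw [mMul, Finset.sum_eq_single (σ a) (fun j _ hj => by simp [mono, Ne.symm hj])
      (fun h => absurd (Finset.mem_univ _) h)]
    simp [mono]
  rw [mMul, Finset.sum_eq_single (τ.symm b) (fun j _ hj => ?_)
    (fun h => absurd (Finset.mem_univ _) h), h1]
  · subst hp; subst hq
    by_cases ha : a = p
    · by_cases hb : b = τ s
      · simp [mono, sgl, ha, hb]
      · have : τ.symm b ≠ s := fun e => hb (by rw [← e, Equiv.apply_symm_apply])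
        simp [sgl, ha, hb, this]
    · simp [sgl, ha]
  · have : τ j ≠ b := fun e => hj (by rw [← e, Equiv.symm_apply_apply])
    simp [mono, this]

lemma mR_eq_sum (Y : Fin m → Fin m → H →L[ℂ] H) :
    mR Y = ∑ j, ∑ k, rUnit j k * sdiag m (Y j k) :=
  sq_op_ext fun v i b => by
    rw [AmpAmp.mR_apply]
    simp only [sum_apply, sq_sum_apply, mul_apply_eq_comp, rUnit_apply, sdiag_apply,
      Finset.sum_ite_eq', Finset.mem_univ, if_true]

lemma mR_mem_cent {Y : Fin m → Fin m → H →L[ℂ] H} (hY : ∀ i j, Y i j ∈ cent N) :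
    mR Y ∈ cent (sqN N m) := by
  rw [mR_eq_sum]
  refine sum_mem fun j _ => sum_mem fun k _ => mul_mem ?_ ?_ <;> rw [mem_cent_iff] <;>
    intro T hT <;> rw [sqN, Subalgebra.mem_centralizer_iff] at hT
  · exact (hT _ (Or.inr ⟨(j, k), rfl⟩)).symm
  · exact (hT _ (Or.inl ⟨_, hY j k, rfl⟩)).symm

lemma mL_mem_sqN {X : Fin m → Fin m → H →L[ℂ] H} (hX : ∀ i j, X i j ∈ N) : mL X ∈ sqN N m := by
  rw [sqN, Subalgebra.mem_centralizer_iff]
  rintro g (⟨y, hy, rfl⟩ | ⟨⟨a, b⟩, rfl⟩)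
  · refine sq_op_ext fun v i k => ?_
    simp only [mul_apply_eq_comp, sdiag_apply, mL_apply, map_sum]
    exact Finset.sum_congr rfl fun j _ => (apply_comm (mem_cent_iff.1 hy _ (hX i j)) _).symm
  · refine sq_op_ext fun v i k => ?_
    by_cases h : b = k <;> simp [h]

section Entries

variable [NeZero m]

lemma lEnt_of_sqN (hN : cent (cent N) = N) {T : Sq H m →L[ℂ] Sq H m} (hT : T ∈ sqN N m) :
    (∀ i j, lEnt T i j ∈ N) ∧ mL (lEnt T) = T := by
  rw [sqN, Subalgebra.mem_centralizer_iff] at hT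
  refine ⟨fun i j => ?_, sq_op_ext fun v i k => ?_⟩
  · rw [← hN, mem_cent_iff]
    exact fun y hy => AmpAmp.comm_lEnt_of_comm_sdiag (hT _ (Or.inl ⟨y, hy, rfl⟩)) i j
  · rw [mL_apply, AmpAmp.apply_of_comm_rUnit fun i j => hT _ (Or.inr ⟨(i, j), rfl⟩)]

lemma sqR_mL (X : Fin m → Fin m → H →L[ℂ] H) : sqR R m (mL X) = mR fun i j => R (X i j) := by
  simp only [sqR, lEnt_mL]

lemma sqR_mL_apply (X : Fin m → Fin m → H →L[ℂ] H) (v : Sq H m) (i k : Fin m) :
    sqR R m (mL X) v (i, k) = ∑ j, R (X j k) (v (i, j)) := by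
  rw [sqR_mL, AmpAmp.mR_apply]

lemma sqGauge_apply (a : (H →L[ℂ] H) →ₗ[ℂ] H) (T : Sq H m →L[ℂ] Sq H m) (i k : Fin m) :
    sqGauge a T (i, k) = ((Real.sqrt m)⁻¹ : ℂ) • a (lEnt T i k) := by
  simp [sqGauge, sq_sum_apply]

/-- The monomial matrices with entries in a finite set, and their negatives. -/
def monoSet (m : ℕ) (S : Finset (H →L[ℂ] H)) : Finset (Sq H m →L[ℂ] Sq H m) := by
  classical
  exact (Finset.univ : Finset (Equiv.Perm (Fin m) × (Fin m → S × Bool))).image fun w =>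
    mL (mono w.1 fun p => if (w.2 p).2 then ((w.2 p).1 : H →L[ℂ] H) else -((w.2 p).1 : H →L[ℂ] H))

lemma mono_mem_monoSet {S : Finset (H →L[ℂ] H)} (σ : Equiv.Perm (Fin m))
    (g : Fin m → H →L[ℂ] H) (hg : ∀ p, g p ∈ S ∨ -g p ∈ S) : mL (mono σ g) ∈ monoSet m S := by
  classical
  refine Finset.mem_image.2 ⟨(σ, fun p => if h : g p ∈ S then (⟨g p, h⟩, true) else
    (⟨-g p, (hg p).resolve_left h⟩, false)), Finset.mem_univ _, ?_⟩
  congr 2
  funext p
  by_cases h : g p ∈ S <;> simp [h]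

lemma exists_of_mem_monoSet {S : Finset (H →L[ℂ] H)} {T : Sq H m →L[ℂ] Sq H m}
    (hT : T ∈ monoSet m S) :
    ∃ (σ : Equiv.Perm (Fin m)) (g : Fin m → H →L[ℂ] H),
      (∀ p, g p ∈ S ∨ -g p ∈ S) ∧ T = mL (mono σ g) := by
  classical
  obtain ⟨⟨σ, w⟩, -, rfl⟩ := Finset.mem_image.1 hT
  refine ⟨σ, _, fun p => ?_, rfl⟩
  dsimp only
  split_ifs
  · exact Or.inl (w p).1.2
  · exact Or.inr (by rw [neg_neg]; exact (w p).1.2)

lemma groupData_monoSet (hS : Std M Ω R) {𝔊 : Finset (H →L[ℂ] H)} (hG : GroupData M R N 𝔊) :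
    GroupData (sqM M m) (sqR R m) (sqN N m) (monoSet m 𝔊) := by
  have hneg : ∀ g h : H →L[ℂ] H, (g ∈ 𝔊 ∨ -g ∈ 𝔊) → (h ∈ 𝔊 ∨ -h ∈ 𝔊) →
      g * h ∈ 𝔊 ∨ -(g * h) ∈ 𝔊 := by
    rintro g h (h1 | h1) (h2 | h2)
    · exact Or.inl (hG.mul_mem g h1 h h2)
    · exact Or.inr (by rw [← mul_neg]; exact hG.mul_mem g h1 _ h2)
    · exact Or.inr (by rw [← neg_mul]; exact hG.mul_mem _ h1 h h2)
    · exact Or.inl (by rw [← neg_mul_neg]; exact hG.mul_mem _ h1 _ h2)
  have hiso : ∀ g : H →L[ℂ] H, (g ∈ 𝔊 ∨ -g ∈ 𝔊) →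
      g ∈ M ∧ star g * g = 1 ∧ g * star g = 1 ∧ g ∈ N ∧ R g ∈ cent N := by
    rintro g (h | h)
    · exact ⟨(hG.isometry g h).1, (hG.isometry g h).2.1, (hG.isometry g h).2.2, hG.inN g h⟩
    · obtain ⟨a1, a2, a3⟩ := hG.isometry _ h
      obtain ⟨b1, b2⟩ := hG.inN _ h
      have a0 : g ∈ M := by simpa using neg_mem a1
      refine ⟨a0, by simpa using a2, by simpa using a3, by simpa using neg_mem b1, ?_⟩
      have h1 : R (-g) = -R g := by
        rw [show -g = (-1 : ℂ) • g by simp, hS.right_smul (-1 : ℂ) a0]; simp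
      rw [h1] at b2
      simpa using neg_mem b2
  refine ⟨?_, ?_, ?_, ?_, ?_⟩
  · rw [← mL_one (m := m),
      show (fun p q : Fin m => if p = q then (1 : H →L[ℂ] H) else 0) =
        mono (Equiv.refl _) (fun _ => 1) from rfl]
    exact mono_mem_monoSet _ _ fun _ => Or.inl hG.one_mem
  · intro g hg h hh
    obtain ⟨σ, a, ha, rfl⟩ := exists_of_mem_monoSet hg
    obtain ⟨τ, b, hb, rfl⟩ := exists_of_mem_monoSet hh
    rw [mL_mul, mono_mul]
    exact mono_mem_monoSet _ _ fun p => hneg _ _ (ha p) (hb _)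
  · intro g hg
    obtain ⟨σ, a, ha, rfl⟩ := exists_of_mem_monoSet hg
    rw [star_mL_mono]
    refine mono_mem_monoSet _ _ fun p => ?_
    rcases ha (σ.symm p) with h | h
    · exact Or.inl (hG.star_mem _ h)
    · exact Or.inr (by rw [← star_neg]; exact hG.star_mem _ h)
  · intro g hg
    obtain ⟨σ, a, ha, rfl⟩ := exists_of_mem_monoSet hg
    refine ⟨mL_mem_sqM fun i j => ?_, ?_, ?_⟩
    · unfold mono; split_ifs
      · exact (hiso _ (ha i)).1
      · exact zero_mem M
    · rw [star_mL_mono, mL_mul, mono_mul, ← mL_one]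
      congr 1
      funext p q
      simp [mono, (hiso _ (ha (σ.symm p))).2.1]
    · rw [star_mL_mono, mL_mul, mono_mul, ← mL_one]
      congr 1
      funext p q
      simp [mono, (hiso _ (ha p)).2.2.1]
  · intro g hg
    obtain ⟨σ, a, ha, rfl⟩ := exists_of_mem_monoSet hg
    refine ⟨mL_mem_sqN fun i j => ?_, ?_⟩
    · unfold mono; split_ifs
      · exact (hiso _ (ha i)).2.2.2.1
      · exact zero_mem N
    · rw [sqR_mL]
      refine mR_mem_cent fun i j => ?_
      unfold mono; split_ifs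
      · exact (hiso _ (ha i)).2.2.2.2
      · have h0 : R 0 = 0 := by simpa using hS.right_smul (0 : ℂ) (zero_mem M)
        rw [h0]; exact zero_mem _

lemma norm_sqVec (v : H) : ‖sqVec m v‖ = ‖v‖ := by
  simpa [sdiag_one] using norm_sdiag_sqVec (m := m) (1 : H →L[ℂ] H) v

/-- A gauge on the matrices which is bimodular over the monomial matrices comes from the base. -/
lemma exists_base_gauge (hS : Std M Ω R) (hS' : Std (sqM M m) (sqVec m Ω) (sqR R m))
    {𝔊 : Finset (H →L[ℂ] H)} (hG : GroupData M R N 𝔊)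
    {A : (Sq H m →L[ℂ] Sq H m) →ₗ[ℂ] Sq H m} {C : ℝ} (hC0 : 0 ≤ C) (hA1 : A 1 = 0)
    (hAm : ∀ g ∈ monoSet m 𝔊, ∀ T ∈ sqM M m,
      A (g * T) = g (A T) ∧ A (T * g) = sqR R m g (A T))
    (hC : ∀ T ∈ sqM M m, ‖A T‖ ≤ C * ‖T‖) :
    ∃ a : (H →L[ℂ] H) →ₗ[ℂ] H, a 1 = 0 ∧
      (∀ g ∈ 𝔊, ∀ x ∈ M, a (g * x) = g (a x) ∧ a (x * g) = R g (a x)) ∧
      (∀ x ∈ M, ‖a x‖ ≤ C * ‖x‖) ∧ ∀ T ∈ sqM M m, A T = sqGauge a T := by
  classical
  let E : Fin m → Sq H m →L[ℂ] Sq H m := fun p => mL (sgl p p 1)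
  let F : Fin m → Fin m → H →L[ℂ] H := fun p a => if a = p then -1 else 1
  have hF : ∀ p, mL (mono (Equiv.refl _) (F p)) ∈ monoSet m 𝔊 := fun p =>
    mono_mem_monoSet _ _ fun a => by
      by_cases h : a = p
      · exact Or.inr (by simp [F, h, hG.one_mem])
      · exact Or.inl (by simp [F, h, hG.one_mem])
  have hE : ∀ p, E p = (2⁻¹ : ℂ) • (1 - mL (mono (Equiv.refl _) (F p))) := fun p => by
    have h1 : (fun a b : Fin m => if a = b then (1 : H →L[ℂ] H) else 0) =
        mono (Equiv.refl _) (F p) + (2 : ℂ) • sgl p p 1 := by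
      funext a b
      by_cases hab : a = b
      · subst hab
        by_cases hap : a = p
        · subst hap
          simp [mono, F, sgl, two_smul]
        · simp [mono, F, sgl, hap]
      · have : ¬(a = p ∧ b = p) := fun h => hab (h.1.trans h.2.symm)
        simp [mono, sgl, hab, this]
    rw [← mL_one, h1, mL_add, mL_smul, add_sub_cancel_left, smul_smul]
    norm_num [E]
  have hEM : ∀ p, E p ∈ sqM M m := fun p => mL_mem_sqM fun i j => by
    unfold sgl; split_ifs
    · exact one_mem M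
    · exact zero_mem M
  have hleft : ∀ p, ∀ T ∈ sqM M m, A (E p * T) = E p (A T) := fun p T hT => by
    rw [hE p, smul_mul_assoc, sub_mul, one_mul, map_smul, map_sub, (hAm _ (hF p) T hT).1]
    simp
  have hFM : ∀ p, mL (mono (Equiv.refl _) (F p)) ∈ sqM M m := fun p =>
    ((groupData_monoSet hS hG).isometry _ (hF p)).1
  have hright : ∀ q, ∀ T ∈ sqM M m, A (T * E q) = sqR R m (E q) (A T) := fun q T hT => by
    rw [hE q, mul_smul_comm, mul_sub, mul_one, map_smul, map_sub, (hAm _ (hF q) T hT).2,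
      hS'.right_smul _ (sub_mem (one_mem (sqM M m)) (hFM q)), hS'.right_sub (one_mem _) (hFM q),
      hS'.right_one]
    simp
  have hsM : ∀ p q, ∀ x ∈ M, mL (sgl p q x) ∈ sqM M m := fun p q x hx => mL_mem_sqM fun i j => by
    unfold sgl; split_ifs
    · exact hx
    · exact zero_mem M
  have h0R : R 0 = 0 := by simpa using hS.right_smul (0 : ℂ) (zero_mem M)
  have hsupp : ∀ p q, ∀ x ∈ M, ∀ i k, ¬(i = p ∧ k = q) → A (mL (sgl p q x)) (i, k) = 0 := by
    intro p q x hx i k hik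
    have e : mL (sgl p q x) = E p * mL (sgl p q x) * E q := by
      rw [mL_mul, mL_mul, sgl_sandwich]
    rw [e, hright q _ (mul_mem (hEM p) (hsM p q x hx)), hleft p _ (hsM p q x hx),
      sqR_mL_apply]
    refine Finset.sum_eq_zero fun j _ => ?_
    by_cases hk : k = q
    · have hi : i ≠ p := fun h => hik ⟨h, hk⟩
      simp [E, sgl, hi]
    · simp [sgl, hk, h0R]
  -- permutations carry every entry to the first
  let α : (H →L[ℂ] H) → H := fun x => A (mL (sgl 0 0 x)) (0, 0)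
  have hperm : ∀ p q, ∀ x ∈ M, A (mL (sgl p q x)) (p, q) = α x := by
    intro p q x hx
    set σ := Equiv.swap (0 : Fin m) p with hσ
    set τ := Equiv.swap (0 : Fin m) q with hτ
    have hP : ∀ ρ : Equiv.Perm (Fin m), mL (mono ρ fun _ => (1 : H →L[ℂ] H)) ∈ monoSet m 𝔊 :=
      fun ρ => mono_mem_monoSet _ _ fun _ => Or.inl hG.one_mem
    have hPM : ∀ ρ : Equiv.Perm (Fin m), mL (mono ρ fun _ => (1 : H →L[ℂ] H)) ∈ sqM M m :=
      fun ρ => ((groupData_monoSet hS hG).isometry _ (hP ρ)).1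
    have e : mL (sgl p q x) = mL (mono σ fun _ => 1) * mL (sgl 0 0 x) * mL (mono τ fun _ => 1) := by
      rw [mL_mul, mL_mul, mono_sgl σ τ 0 0 p q x (Equiv.swap_apply_right _ _)
        (Equiv.swap_apply_left _ _)]
    rw [e, (hAm _ (hP τ) _ (mul_mem (hPM σ) (hsM 0 0 x hx))).2,
      (hAm _ (hP σ) _ (hsM 0 0 x hx)).1, sqR_mL_apply,
      Finset.sum_eq_single (0 : Fin m) (fun j _ hj => ?_) (fun h => absurd (Finset.mem_univ _) h)]
    · simp only [mono, hσ, hτ, α, Equiv.swap_apply_left, Equiv.swap_apply_right, if_true,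
        hS.right_one, one_apply_eq_self, mL_apply]
      rw [Finset.sum_eq_single (0 : Fin m) (fun j _ hj => by simp [Ne.symm hj])
        (fun h => absurd (Finset.mem_univ _) h)]
      simp
    · have : τ j ≠ q := fun h => hj (by
        rw [← Equiv.swap_apply_left (0 : Fin m) q, ← hτ] at h
        exact τ.injective h)
      simp [mono, this, h0R]
  have hsum : ∀ T ∈ sqM M m, ∀ i k, A T (i, k) = α (lEnt T i k) := by
    intro T hT i k
    conv_lhs => rw [← Flatten.mL_lEnt hT,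
      show lEnt T = ∑ p, ∑ q, sgl p q (lEnt T p q) by
        funext a b; simp [Finset.sum_apply, sgl, ite_and]]
    simp only [mL_sum, map_sum, sq_sum_apply]
    rw [Finset.sum_eq_single i (fun p _ hp => Finset.sum_eq_zero fun q _ =>
        hsupp p q _ (lEnt_mem hT p q) i k fun h => hp h.1.symm)
      (fun h => absurd (Finset.mem_univ _) h),
      Finset.sum_eq_single k (fun q _ hq =>
        hsupp i q _ (lEnt_mem hT i q) i k fun h => hq h.2.symm)
      (fun h => absurd (Finset.mem_univ _) h), hperm i k _ (lEnt_mem hT i k)]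
  have hm0 : (Real.sqrt m : ℂ) ≠ 0 := by
    simpa using (Real.sqrt_pos.2 (Nat.cast_pos.2 (NeZero.pos m))).ne'
  have hadd : ∀ x y, α (x + y) = α x + α y := fun x y => by
    simp only [α]
    rw [show sgl (0 : Fin m) 0 (x + y) = sgl 0 0 x + sgl 0 0 y by
      funext a b; simp only [sgl, Pi.add_apply]; split_ifs <;> simp, mL_add, map_add]
    rfl
  have hsmul : ∀ (c : ℂ) x, α (c • x) = c • α x := fun c x => by
    simp only [α]
    rw [show sgl (0 : Fin m) 0 (c • x) = c • sgl 0 0 x by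
      funext a b; simp only [sgl, Pi.smul_apply]; split_ifs <;> simp, mL_smul, map_smul]
    rfl
  let a : (H →L[ℂ] H) →ₗ[ℂ] H :=
    { toFun := fun x => (Real.sqrt m : ℂ) • α x
      map_add' := fun x y => by simp [hadd]
      map_smul' := fun c x => by simp [hsmul, smul_comm c] }
  have hA : ∀ T ∈ sqM M m, A T = sqGauge a T := fun T hT => sq_ext fun i k => by
    rw [hsum T hT, sqGauge_apply]
    show _ = _ • ((Real.sqrt m : ℂ) • α _)
    rw [smul_smul, inv_mul_cancel₀ hm0, one_smul]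
  have hdiag : ∀ x : H →L[ℂ] H, sqGauge a (sdiag m x) = sqVec m (a x) := fun x =>
    sq_ext fun i k => by
      rw [sqGauge_apply, sqVec_apply, ← mL_diag, lEnt_mL]
      split_ifs <;> simp
  have hinj : ∀ v w : H, sqVec m v = sqVec m w → v = w := fun v w h => by
    have h1 := congrArg (fun F : Sq H m => F (0, 0)) h
    simp only [sqVec_apply, if_true] at h1
    exact smul_right_injective H (inv_ne_zero hm0) h1
  refine ⟨a, ?_, fun g hg x hx => ?_, fun x hx => ?_, hA⟩
  · refine hinj _ _ ?_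
    rw [← hdiag, sdiag_one, ← hA 1 (one_mem _), hA1]
    exact sq_ext fun i k => by simp [sqVec_apply]
  · have hd : sdiag m g ∈ monoSet m 𝔊 := by
      rw [← mL_diag]
      exact mono_mem_monoSet (Equiv.refl _) _ fun _ => Or.inl hg
    have hgM := (hG.isometry g hg).1
    obtain ⟨b1, b2⟩ := hAm _ hd _ (sdiag_mem_sqM hx)
    rw [← sdiag_mul, hA _ (sdiag_mem_sqM (mul_mem hgM hx)), hA _ (sdiag_mem_sqM hx), hdiag,
      hdiag] at b1
    rw [← sdiag_mul, hA _ (sdiag_mem_sqM (mul_mem hx hgM)), hA _ (sdiag_mem_sqM hx), hdiag,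
      hdiag] at b2
    constructor
    · refine hinj _ _ (b1.trans (sq_ext fun i k => ?_))
      simp [sqVec_apply, apply_ite g]
    · refine hinj _ _ (b2.trans (sq_ext fun i k => ?_))
      rw [← mL_diag, sqR_mL_apply]
      rw [Finset.sum_eq_single k (fun j _ hj => by simp [hj, h0R])
        (fun h => absurd (Finset.mem_univ _) h), if_pos rfl, sqVec_apply, sqVec_apply,
        apply_ite (R g), map_smul, map_zero]
  · rw [← norm_sqVec (m := m) (a x), ← hdiag, ← hA _ (sdiag_mem_sqM hx)]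
    exact (hC _ (sdiag_mem_sqM hx)).trans (mul_le_mul_of_nonneg_left (norm_sdiag_le x) hC0)

end Entries

end Vale.Agent.P096.KK
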